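import Vale.Agent.P237.Profile.Deriv

/-!
# The functional of the profile lemma for `ℝ⁵`
-/

namespace Vale.Agent.P237.Five

open MeasureTheory Profile
open scoped Real

/-- The constants of one range of the volume ratio, in units of `10⁻⁵`; `xb` is the upper end of
the range in units of `10⁻²`. -/
structure Par where
  a : ℕ
  b0 : ℕ
  b1 : ℕ
  c3 : ℕ
  c4 : ℤ
  b5 : ℕ
  b6 : ℕ
  xb : ℕ

/-- Used for volume ratios at most `6/5`. -/
def parA : Par := ⟨67084, 5656, 4322, 21947, -27, 1078, 1817, 120⟩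

/-- Used for volume ratios in `[6/5, 8/5]`. -/
def parB : Par := ⟨67147, 5489, 5928, 19651, 1698, 2209, 2724, 160⟩

/-- Used for volume ratios in `[8/5, 3]`. -/
def parC : Par := ⟨65635, 5512, 2853, 7627, 3409, 1183, 1003, 300⟩

/-- Used for volume ratios in `[3, 11/2]`. -/
def parD : Par := ⟨61890, 4679, 1201, 2107, 2998, 423, 299, 550⟩

/-- Used for volume ratios in `[11/2, 208/25]`. -/
def parE : Par := ⟨58915, 3359, 710, 1019, 2233, 169, 114, 832⟩

/-- The five sets of constants. -/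
def IsPar (P : Par) : Prop := P = parA ∨ P = parB ∨ P = parC ∨ P = parD ∨ P = parE

/-- The excess of the normalised cube moment along the path. -/
noncomputable def dq (g : ℝ → ℝ) (q : ℝ) : ℝ :=
  16 / (3 * π) * (∫ t, path g q t ^ 3 ∂μI) - 1

/-- The excess of the normalised volume along the path. -/
noncomputable def xq (g : ℝ → ℝ) (q : ℝ) : ℝ := 15 / 8 * (∫ t, path g q t ^ 4 ∂μI) - 1

/-- The excess of the normalised second moment along the path. -/
noncomputable def tq (g : ℝ → ℝ) (q : ℝ) : ℝ :=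
  105 / 8 * (∫ t, t ^ 2 * path g q t ^ 4 ∂μI) - 1

/-- The partial derivative in `d`. -/
noncomputable def Par.fd (P : Par) (x t : ℝ) : ℝ :=
  1 + (P.c3 : ℝ) / 100000 * x - (P.b6 : ℝ) / 100000 * t

/-- The partial derivative in `x`. -/
noncomputable def Par.fx (P : Par) (d x t : ℝ) : ℝ :=
  (P.c3 : ℝ) / 100000 * d + 2 * ((P.c4 : ℝ) / 100000) * x - (P.a : ℝ) / 100000
    - (P.b1 : ℝ) / 100000 * t

/-- Minus the partial derivative in `t`. -/
noncomputable def Par.ft (P : Par) (d x t : ℝ) : ℝ :=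
  (P.b0 : ℝ) / 100000 + (P.b1 : ℝ) / 100000 * x - 2 * ((P.b5 : ℝ) / 100000) * t
    + (P.b6 : ℝ) / 100000 * d

/-- The quadratic functional in the three excesses. -/
noncomputable def Par.F (P : Par) (d x t : ℝ) : ℝ :=
  d + (P.c3 : ℝ) / 100000 * d * x + (P.c4 : ℝ) / 100000 * x ^ 2 - (P.a : ℝ) / 100000 * x
    - t * ((P.b0 : ℝ) / 100000 + (P.b1 : ℝ) / 100000 * x - (P.b5 : ℝ) / 100000 * t
        + (P.b6 : ℝ) / 100000 * d)

/-- The functional along the path. -/
noncomputable def psi (P : Par) (g : ℝ → ℝ) (q : ℝ) : ℝ := P.F (dq g q) (xq g q) (tq g q)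

/-- Its right derivative. -/
noncomputable def dpsi (P : Par) (g : ℝ → ℝ) (q : ℝ) : ℝ :=
  P.fd (xq g q) (tq g q) * (16 / π * ∫ t, path g q t ^ 2 * dpath g q t ∂μI)
    + P.fx (dq g q) (xq g q) (tq g q) * (15 / 2 * ∫ t, path g q t ^ 3 * dpath g q t ∂μI)
    - P.ft (dq g q) (xq g q) (tq g q)
      * (105 / 2 * ∫ t, t ^ 2 * (path g q t ^ 3 * dpath g q t) ∂μI)

end Vale.Agent.P237.Five
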