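import Vale.Agent.P237.Five.Defs
import Vale.Agent.P237.Four.Deriv

/-!
The functional for `ℝ⁵` along the path: continuity, right derivative, values at the two ends.
-/

namespace Vale.Agent.P237.Five

open Set MeasureTheory Filter Profile
open scoped Topology Real
open Four (wpow)

variable {g : ℝ → ℝ}

lemma dq_eq (g : ℝ → ℝ) (q : ℝ) : dq g q = 16 / (3 * π) * wpow (fun _ => 1) 3 g q - 1 := by
  simp only [dq, wpow, one_mul]

lemma xq_eq (g : ℝ → ℝ) (q : ℝ) : xq g q = 15 / 8 * wpow (fun _ => 1) 4 g q - 1 := by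
  simp only [xq, wpow, one_mul]

lemma tq_eq (g : ℝ → ℝ) (q : ℝ) : tq g q = 105 / 8 * wpow (fun t => t ^ 2) 4 g q - 1 := by
  simp only [tq, wpow]

lemma hasDeriv_dq (hg : Profile.Adm g) {q : ℝ} (hq0 : 0 ≤ q) (hq1 : q < 1) :
    HasDerivWithinAt (dq g) (16 / π * ∫ t, path g q t ^ 2 * dpath g q t ∂μI) (Ioi q) q := by
  rw [funext (dq_eq g)]
  refine (((Four.hasDeriv_wpow hg (continuous_const (y := (1:ℝ))) 3 hq0 hq1).const_mul
    (16 / (3 * π))).sub_const 1).congr_deriv ?_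
  simp only [one_mul, integral_const_mul, show (3:ℕ) - 1 = 2 from rfl]
  push_cast
  ring

lemma hasDeriv_xq (hg : Profile.Adm g) {q : ℝ} (hq0 : 0 ≤ q) (hq1 : q < 1) :
    HasDerivWithinAt (xq g) (15 / 2 * ∫ t, path g q t ^ 3 * dpath g q t ∂μI) (Ioi q) q := by
  rw [funext (xq_eq g)]
  refine (((Four.hasDeriv_wpow hg (continuous_const (y := (1:ℝ))) 4 hq0 hq1).const_mul
    (15 / 8 : ℝ)).sub_const 1).congr_deriv ?_
  simp only [one_mul, integral_const_mul, show (4:ℕ) - 1 = 3 from rfl]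
  push_cast
  ring

lemma hasDeriv_tq (hg : Profile.Adm g) {q : ℝ} (hq0 : 0 ≤ q) (hq1 : q < 1) :
    HasDerivWithinAt (tq g) (105 / 2 * ∫ t, t ^ 2 * (path g q t ^ 3 * dpath g q t) ∂μI)
      (Ioi q) q := by
  rw [funext (tq_eq g)]
  refine (((Four.hasDeriv_wpow hg (continuous_pow 2) 4 hq0 hq1).const_mul
    (105 / 8 : ℝ)).sub_const 1).congr_deriv ?_
  simp only [integral_const_mul, mul_assoc, show (4:ℕ) - 1 = 3 from rfl]
  push_cast
  ring

lemma hasDeriv_F (P : Par) {d x t : ℝ → ℝ} {d' x' t' : ℝ} {s : Set ℝ} {q : ℝ}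
    (hd : HasDerivWithinAt d d' s q) (hx : HasDerivWithinAt x x' s q)
    (ht : HasDerivWithinAt t t' s q) :
    HasDerivWithinAt (fun a => P.F (d a) (x a) (t a))
      (P.fd (x q) (t q) * d' + P.fx (d q) (x q) (t q) * x' - P.ft (d q) (x q) (t q) * t') s q := by
  unfold Par.F
  refine ((((hd.add ((hd.const_mul _).mul hx)).add ((hx.fun_pow 2).const_mul _)).sub
    (hx.const_mul _)).sub (ht.mul ((((hx.const_mul _).const_add _).sub (ht.const_mul _)).add
      (hd.const_mul _)))).congr_deriv ?_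
  simp only [Par.fd, Par.fx, Par.ft, Pi.add_apply, Pi.sub_apply]
  push_cast
  ring

lemma hasDeriv_psi (hg : Profile.Adm g) (P : Par) {q : ℝ} (hq0 : 0 ≤ q) (hq1 : q < 1) :
    HasDerivWithinAt (psi P g) (dpsi P g q) (Ioi q) q :=
  hasDeriv_F P (hasDeriv_dq hg hq0 hq1) (hasDeriv_xq hg hq0 hq1) (hasDeriv_tq hg hq0 hq1)

lemma continuous_F (P : Par) : Continuous fun z : ℝ × ℝ × ℝ => P.F z.1 z.2.1 z.2.2 := by
  unfold Par.F; fun_prop

lemma continuousOn_psi (hg : Profile.Adm g) (P : Par) {B : ℝ} (hB : B < 1) :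
    ContinuousOn (psi P g) (Icc 0 B) := by
  have hd : ContinuousOn (dq g) (Icc 0 B) := by
    rw [funext (dq_eq g)]
    exact (continuousOn_const.mul (Four.continuousOn_wpow hg continuous_const 3 hB)).sub
      continuousOn_const
  have hx : ContinuousOn (xq g) (Icc 0 B) := by
    rw [funext (xq_eq g)]
    exact (continuousOn_const.mul (Four.continuousOn_wpow hg continuous_const 4 hB)).sub
      continuousOn_const
  have ht : ContinuousOn (tq g) (Icc 0 B) := by
    rw [funext (tq_eq g)]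
    exact (continuousOn_const.mul (Four.continuousOn_wpow hg (continuous_pow 2) 4 hB)).sub
      continuousOn_const
  exact (continuous_F P).comp_continuousOn (hd.prodMk (hx.prodMk ht))

lemma tendsto_psi (hg : Profile.Adm g) (P : Par) :
    Tendsto (psi P g) (𝓝[<] 1)
      (𝓝 (P.F (16 / (3 * π) * (∫ t in (0:ℝ)..1, g t ^ 3) - 1)
        (15 / 8 * (∫ t in (0:ℝ)..1, g t ^ 4) - 1)
        (105 / 8 * (∫ t in (0:ℝ)..1, t ^ 2 * g t ^ 4) - 1))) := by
  have hd : Tendsto (dq g) (𝓝[<] 1) (𝓝 (16 / (3 * π) * (∫ t in (0:ℝ)..1, g t ^ 3) - 1)) := by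
    rw [funext (dq_eq g)]
    have h := Four.tendsto_wpow hg (continuous_const (y := (1:ℝ))) 3
    simp only [one_mul] at h
    exact (h.const_mul _).sub_const 1
  have hx : Tendsto (xq g) (𝓝[<] 1) (𝓝 (15 / 8 * (∫ t in (0:ℝ)..1, g t ^ 4) - 1)) := by
    rw [funext (xq_eq g)]
    have h := Four.tendsto_wpow hg (continuous_const (y := (1:ℝ))) 4
    simp only [one_mul] at h
    exact (h.const_mul _).sub_const 1
  have ht : Tendsto (tq g) (𝓝[<] 1) (𝓝 (105 / 8 * (∫ t in (0:ℝ)..1, t ^ 2 * g t ^ 4) - 1)) := by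
    rw [funext (tq_eq g)]
    exact ((Four.tendsto_wpow hg (continuous_pow 2) 4).const_mul _).sub_const 1
  exact ((continuous_F P).tendsto _).comp (hd.prodMk_nhds (hx.prodMk_nhds ht))

end Vale.Agent.P237.Five
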