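import Vale.Agent.P237.Five.Defs

/-!
The polynomial inequalities at the two ends of the range of the second moment, for the five
ranges of the volume ratio.
-/

namespace Vale.Agent.P237.Five

/-- A cubic above `(1 + u) ^ (3/4)`. -/
noncomputable def pY (u : ℝ) : ℝ := 1 + 3 / 4 * u - 3 / 32 * u ^ 2 + 5 / 128 * u ^ 3

/-- A cubic below `(1 + u) ^ (7/5)`. -/
noncomputable def pT (u : ℝ) : ℝ := 1 + 7 / 5 * u + 7 / 25 * u ^ 2 - 7 / 125 * u ^ 3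

lemma pY_pos {u : ℝ} (h0 : -31/100 ≤ u) (h1 : u ≤ 31/100) : 0 < pY u := by
  unfold pY
  nlinarith [sq_nonneg u, mul_nonneg (sub_nonneg.2 h0) (sub_nonneg.2 h1)]

lemma pY_pow {u : ℝ} (h0 : -31/100 ≤ u) (h1 : u ≤ 31/100) :
    (1 + u) ^ 3 ≤ pY u ^ 4 := by
  have hl : 0 ≤ u + 31/100 := by linarith
  have hh : 0 ≤ 31/100 - u := by linarith
  have z0 := mul_nonneg (pow_nonneg (mul_self_nonneg u) 2)
    (mul_nonneg (pow_nonneg hl 0) (pow_nonneg hh 8))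
  have z1 := mul_nonneg (pow_nonneg (mul_self_nonneg u) 2)
    (mul_nonneg (pow_nonneg hl 1) (pow_nonneg hh 7))
  have z2 := mul_nonneg (pow_nonneg (mul_self_nonneg u) 2)
    (mul_nonneg (pow_nonneg hl 2) (pow_nonneg hh 6))
  have z3 := mul_nonneg (pow_nonneg (mul_self_nonneg u) 2)
    (mul_nonneg (pow_nonneg hl 3) (pow_nonneg hh 5))
  have z4 := mul_nonneg (pow_nonneg (mul_self_nonneg u) 2)
    (mul_nonneg (pow_nonneg hl 4) (pow_nonneg hh 4))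
  have z5 := mul_nonneg (pow_nonneg (mul_self_nonneg u) 2)
    (mul_nonneg (pow_nonneg hl 5) (pow_nonneg hh 3))
  have z6 := mul_nonneg (pow_nonneg (mul_self_nonneg u) 2)
    (mul_nonneg (pow_nonneg hl 6) (pow_nonneg hh 2))
  have z7 := mul_nonneg (pow_nonneg (mul_self_nonneg u) 2)
    (mul_nonneg (pow_nonneg hl 7) (pow_nonneg hh 1))
  have z8 := mul_nonneg (pow_nonneg (mul_self_nonneg u) 2)
    (mul_nonneg (pow_nonneg hl 8) (pow_nonneg hh 0))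
  unfold pY
  linarith

lemma pT_pow {u : ℝ} (h0 : -31/100 ≤ u) (h1 : u ≤ 31/100) :
    pT u ^ 5 ≤ (1 + u) ^ 7 := by
  have hl : 0 ≤ u + 31/100 := by linarith
  have hh : 0 ≤ 31/100 - u := by linarith
  have z0 := mul_nonneg (pow_nonneg (mul_self_nonneg u) 2)
    (mul_nonneg (pow_nonneg hl 0) (pow_nonneg hh 11))
  have z1 := mul_nonneg (pow_nonneg (mul_self_nonneg u) 2)
    (mul_nonneg (pow_nonneg hl 1) (pow_nonneg hh 10))
  have z2 := mul_nonneg (pow_nonneg (mul_self_nonneg u) 2)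
    (mul_nonneg (pow_nonneg hl 2) (pow_nonneg hh 9))
  have z3 := mul_nonneg (pow_nonneg (mul_self_nonneg u) 2)
    (mul_nonneg (pow_nonneg hl 3) (pow_nonneg hh 8))
  have z4 := mul_nonneg (pow_nonneg (mul_self_nonneg u) 2)
    (mul_nonneg (pow_nonneg hl 4) (pow_nonneg hh 7))
  have z5 := mul_nonneg (pow_nonneg (mul_self_nonneg u) 2)
    (mul_nonneg (pow_nonneg hl 5) (pow_nonneg hh 6))
  have z6 := mul_nonneg (pow_nonneg (mul_self_nonneg u) 2)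
    (mul_nonneg (pow_nonneg hl 6) (pow_nonneg hh 5))
  have z7 := mul_nonneg (pow_nonneg (mul_self_nonneg u) 2)
    (mul_nonneg (pow_nonneg hl 7) (pow_nonneg hh 4))
  have z8 := mul_nonneg (pow_nonneg (mul_self_nonneg u) 2)
    (mul_nonneg (pow_nonneg hl 8) (pow_nonneg hh 3))
  have z9 := mul_nonneg (pow_nonneg (mul_self_nonneg u) 2)
    (mul_nonneg (pow_nonneg hl 9) (pow_nonneg hh 2))
  have z10 := mul_nonneg (pow_nonneg (mul_self_nonneg u) 2)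
    (mul_nonneg (pow_nonneg hl 10) (pow_nonneg hh 1))
  have z11 := mul_nonneg (pow_nonneg (mul_self_nonneg u) 2)
    (mul_nonneg (pow_nonneg hl 11) (pow_nonneg hh 0))
  unfold pT
  linarith

lemma endAL {u : ℝ} (h0 : 0 < u) (h1 : u ≤ (1/5:ℝ)) :
    parA.F ((1:ℝ) * pY u - 1) ((1:ℝ) * (1 + u) - 1) ((1:ℝ) * pT u - 1) < 0 := by
  have hl : 0 ≤ u - (0:ℝ) := by linarith
  have hh : 0 ≤ (1/5:ℝ) - u := by linarith
  have hu : 0 ≤ u := h0.le
  have z0 := mul_nonneg hu (mul_nonneg (pow_nonneg hl 0) (pow_nonneg hh 5))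
  have z1 := mul_nonneg hu (mul_nonneg (pow_nonneg hl 1) (pow_nonneg hh 4))
  have z2 := mul_nonneg hu (mul_nonneg (pow_nonneg hl 2) (pow_nonneg hh 3))
  have z3 := mul_nonneg hu (mul_nonneg (pow_nonneg hl 3) (pow_nonneg hh 2))
  have z4 := mul_nonneg hu (mul_nonneg (pow_nonneg hl 4) (pow_nonneg hh 1))
  have z5 := mul_nonneg hu (mul_nonneg (pow_nonneg hl 5) (pow_nonneg hh 0))
  norm_num [parA, Par.F, pY, pT]
  linarith

lemma endAU {u : ℝ} (h0 : 0 < u) (h1 : u ≤ (1/5:ℝ)) :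
    parA.F ((1:ℝ) * pY u - 1) ((1:ℝ) * (1 + u) - 1) (7 / 3 * ((1:ℝ) * (1 + u)) - 1) < 0 := by
  have hl : 0 ≤ u - (0:ℝ) := by linarith
  have hh : 0 ≤ (1/5:ℝ) - u := by linarith
  have z0 := mul_nonneg (zero_le_one (α := ℝ)) (mul_nonneg (pow_nonneg hl 0) (pow_nonneg hh 4))
  have z1 := mul_nonneg (zero_le_one (α := ℝ)) (mul_nonneg (pow_nonneg hl 1) (pow_nonneg hh 3))
  have z2 := mul_nonneg (zero_le_one (α := ℝ)) (mul_nonneg (pow_nonneg hl 2) (pow_nonneg hh 2))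
  have z3 := mul_nonneg (zero_le_one (α := ℝ)) (mul_nonneg (pow_nonneg hl 3) (pow_nonneg hh 1))
  have z4 := mul_nonneg (zero_le_one (α := ℝ)) (mul_nonneg (pow_nonneg hl 4) (pow_nonneg hh 0))
  norm_num [parA, Par.F, pY, pT]
  linarith

lemma endBL {u : ℝ} (h0 : (-1/7:ℝ) ≤ u) (h1 : u ≤ (1/7:ℝ)) :
    parB.F ((64353/50000:ℝ) * pY u - 1) ((7/5:ℝ) * (1 + u) - 1) ((160169/100000:ℝ) * pT u - 1) < 0 := by
  have hl : 0 ≤ u - (-1/7:ℝ) := by linarith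
  have hh : 0 ≤ (1/7:ℝ) - u := by linarith
  have z0 := mul_nonneg (zero_le_one (α := ℝ)) (mul_nonneg (pow_nonneg hl 0) (pow_nonneg hh 6))
  have z1 := mul_nonneg (zero_le_one (α := ℝ)) (mul_nonneg (pow_nonneg hl 1) (pow_nonneg hh 5))
  have z2 := mul_nonneg (zero_le_one (α := ℝ)) (mul_nonneg (pow_nonneg hl 2) (pow_nonneg hh 4))
  have z3 := mul_nonneg (zero_le_one (α := ℝ)) (mul_nonneg (pow_nonneg hl 3) (pow_nonneg hh 3))
  have z4 := mul_nonneg (zero_le_one (α := ℝ)) (mul_nonneg (pow_nonneg hl 4) (pow_nonneg hh 2))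
  have z5 := mul_nonneg (zero_le_one (α := ℝ)) (mul_nonneg (pow_nonneg hl 5) (pow_nonneg hh 1))
  have z6 := mul_nonneg (zero_le_one (α := ℝ)) (mul_nonneg (pow_nonneg hl 6) (pow_nonneg hh 0))
  norm_num [parB, Par.F, pY, pT]
  linarith

lemma endBU {u : ℝ} (h0 : (-1/7:ℝ) ≤ u) (h1 : u ≤ (1/7:ℝ)) :
    parB.F ((64353/50000:ℝ) * pY u - 1) ((7/5:ℝ) * (1 + u) - 1) (7 / 3 * ((7/5:ℝ) * (1 + u)) - 1) < 0 := by
  have hl : 0 ≤ u - (-1/7:ℝ) := by linarith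
  have hh : 0 ≤ (1/7:ℝ) - u := by linarith
  have z0 := mul_nonneg (zero_le_one (α := ℝ)) (mul_nonneg (pow_nonneg hl 0) (pow_nonneg hh 4))
  have z1 := mul_nonneg (zero_le_one (α := ℝ)) (mul_nonneg (pow_nonneg hl 1) (pow_nonneg hh 3))
  have z2 := mul_nonneg (zero_le_one (α := ℝ)) (mul_nonneg (pow_nonneg hl 2) (pow_nonneg hh 2))
  have z3 := mul_nonneg (zero_le_one (α := ℝ)) (mul_nonneg (pow_nonneg hl 3) (pow_nonneg hh 1))
  have z4 := mul_nonneg (zero_le_one (α := ℝ)) (mul_nonneg (pow_nonneg hl 4) (pow_nonneg hh 0))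
  norm_num [parB, Par.F, pY, pT]
  linarith

lemma endCL {u : ℝ} (h0 : (-7/23:ℝ) ≤ u) (h1 : u ≤ (7/23:ℝ)) :
    parC.F ((93383/50000:ℝ) * pY u - 1) ((23/10:ℝ) * (1 + u) - 1) ((40117/12500:ℝ) * pT u - 1) < 0 := by
  have hl : 0 ≤ u - (-7/23:ℝ) := by linarith
  have hh : 0 ≤ (7/23:ℝ) - u := by linarith
  have z0 := mul_nonneg (zero_le_one (α := ℝ)) (mul_nonneg (pow_nonneg hl 0) (pow_nonneg hh 6))
  have z1 := mul_nonneg (zero_le_one (α := ℝ)) (mul_nonneg (pow_nonneg hl 1) (pow_nonneg hh 5))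
  have z2 := mul_nonneg (zero_le_one (α := ℝ)) (mul_nonneg (pow_nonneg hl 2) (pow_nonneg hh 4))
  have z3 := mul_nonneg (zero_le_one (α := ℝ)) (mul_nonneg (pow_nonneg hl 3) (pow_nonneg hh 3))
  have z4 := mul_nonneg (zero_le_one (α := ℝ)) (mul_nonneg (pow_nonneg hl 4) (pow_nonneg hh 2))
  have z5 := mul_nonneg (zero_le_one (α := ℝ)) (mul_nonneg (pow_nonneg hl 5) (pow_nonneg hh 1))
  have z6 := mul_nonneg (zero_le_one (α := ℝ)) (mul_nonneg (pow_nonneg hl 6) (pow_nonneg hh 0))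
  norm_num [parC, Par.F, pY, pT]
  linarith

lemma endCU {u : ℝ} (h0 : (-7/23:ℝ) ≤ u) (h1 : u ≤ (7/23:ℝ)) :
    parC.F ((93383/50000:ℝ) * pY u - 1) ((23/10:ℝ) * (1 + u) - 1) (7 / 3 * ((23/10:ℝ) * (1 + u)) - 1) < 0 := by
  have hl : 0 ≤ u - (-7/23:ℝ) := by linarith
  have hh : 0 ≤ (7/23:ℝ) - u := by linarith
  have z0 := mul_nonneg (zero_le_one (α := ℝ)) (mul_nonneg (pow_nonneg hl 0) (pow_nonneg hh 4))
  have z1 := mul_nonneg (zero_le_one (α := ℝ)) (mul_nonneg (pow_nonneg hl 1) (pow_nonneg hh 3))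
  have z2 := mul_nonneg (zero_le_one (α := ℝ)) (mul_nonneg (pow_nonneg hl 2) (pow_nonneg hh 2))
  have z3 := mul_nonneg (zero_le_one (α := ℝ)) (mul_nonneg (pow_nonneg hl 3) (pow_nonneg hh 1))
  have z4 := mul_nonneg (zero_le_one (α := ℝ)) (mul_nonneg (pow_nonneg hl 4) (pow_nonneg hh 0))
  norm_num [parC, Par.F, pY, pT]
  linarith

lemma endDL {u : ℝ} (h0 : (-5/17:ℝ) ≤ u) (h1 : u ≤ (5/17:ℝ)) :
    parD.F ((74/25:ℝ) * pY u - 1) ((17/4:ℝ) * (1 + u) - 1) ((758131/100000:ℝ) * pT u - 1) < 0 := by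
  have hl : 0 ≤ u - (-5/17:ℝ) := by linarith
  have hh : 0 ≤ (5/17:ℝ) - u := by linarith
  have z0 := mul_nonneg (zero_le_one (α := ℝ)) (mul_nonneg (pow_nonneg hl 0) (pow_nonneg hh 6))
  have z1 := mul_nonneg (zero_le_one (α := ℝ)) (mul_nonneg (pow_nonneg hl 1) (pow_nonneg hh 5))
  have z2 := mul_nonneg (zero_le_one (α := ℝ)) (mul_nonneg (pow_nonneg hl 2) (pow_nonneg hh 4))
  have z3 := mul_nonneg (zero_le_one (α := ℝ)) (mul_nonneg (pow_nonneg hl 3) (pow_nonneg hh 3))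
  have z4 := mul_nonneg (zero_le_one (α := ℝ)) (mul_nonneg (pow_nonneg hl 4) (pow_nonneg hh 2))
  have z5 := mul_nonneg (zero_le_one (α := ℝ)) (mul_nonneg (pow_nonneg hl 5) (pow_nonneg hh 1))
  have z6 := mul_nonneg (zero_le_one (α := ℝ)) (mul_nonneg (pow_nonneg hl 6) (pow_nonneg hh 0))
  norm_num [parD, Par.F, pY, pT]
  linarith

lemma endDU {u : ℝ} (h0 : (-5/17:ℝ) ≤ u) (h1 : u ≤ (5/17:ℝ)) :
    parD.F ((74/25:ℝ) * pY u - 1) ((17/4:ℝ) * (1 + u) - 1) (7 / 3 * ((17/4:ℝ) * (1 + u)) - 1) < 0 := by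
  have hl : 0 ≤ u - (-5/17:ℝ) := by linarith
  have hh : 0 ≤ (5/17:ℝ) - u := by linarith
  have z0 := mul_nonneg (zero_le_one (α := ℝ)) (mul_nonneg (pow_nonneg hl 0) (pow_nonneg hh 4))
  have z1 := mul_nonneg (zero_le_one (α := ℝ)) (mul_nonneg (pow_nonneg hl 1) (pow_nonneg hh 3))
  have z2 := mul_nonneg (zero_le_one (α := ℝ)) (mul_nonneg (pow_nonneg hl 2) (pow_nonneg hh 2))
  have z3 := mul_nonneg (zero_le_one (α := ℝ)) (mul_nonneg (pow_nonneg hl 3) (pow_nonneg hh 1))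
  have z4 := mul_nonneg (zero_le_one (α := ℝ)) (mul_nonneg (pow_nonneg hl 4) (pow_nonneg hh 0))
  norm_num [parD, Par.F, pY, pT]
  linarith

lemma endEL {u : ℝ} (h0 : (-71/346:ℝ) ≤ u) (h1 : u ≤ (35/173:ℝ)) :
    parE.F ((213329/50000:ℝ) * pY u - 1) ((173/25:ℝ) * (1 + u) - 1) ((1500197/100000:ℝ) * pT u - 1) < 0 := by
  have hl : 0 ≤ u - (-71/346:ℝ) := by linarith
  have hh : 0 ≤ (35/173:ℝ) - u := by linarith
  have z0 := mul_nonneg (zero_le_one (α := ℝ)) (mul_nonneg (pow_nonneg hl 0) (pow_nonneg hh 6))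
  have z1 := mul_nonneg (zero_le_one (α := ℝ)) (mul_nonneg (pow_nonneg hl 1) (pow_nonneg hh 5))
  have z2 := mul_nonneg (zero_le_one (α := ℝ)) (mul_nonneg (pow_nonneg hl 2) (pow_nonneg hh 4))
  have z3 := mul_nonneg (zero_le_one (α := ℝ)) (mul_nonneg (pow_nonneg hl 3) (pow_nonneg hh 3))
  have z4 := mul_nonneg (zero_le_one (α := ℝ)) (mul_nonneg (pow_nonneg hl 4) (pow_nonneg hh 2))
  have z5 := mul_nonneg (zero_le_one (α := ℝ)) (mul_nonneg (pow_nonneg hl 5) (pow_nonneg hh 1))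
  have z6 := mul_nonneg (zero_le_one (α := ℝ)) (mul_nonneg (pow_nonneg hl 6) (pow_nonneg hh 0))
  norm_num [parE, Par.F, pY, pT]
  linarith

lemma endEU {u : ℝ} (h0 : (-71/346:ℝ) ≤ u) (h1 : u ≤ (35/173:ℝ)) :
    parE.F ((213329/50000:ℝ) * pY u - 1) ((173/25:ℝ) * (1 + u) - 1) (7 / 3 * ((173/25:ℝ) * (1 + u)) - 1) < 0 := by
  have hl : 0 ≤ u - (-71/346:ℝ) := by linarith
  have hh : 0 ≤ (35/173:ℝ) - u := by linarith
  have z0 := mul_nonneg (zero_le_one (α := ℝ)) (mul_nonneg (pow_nonneg hl 0) (pow_nonneg hh 4))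
  have z1 := mul_nonneg (zero_le_one (α := ℝ)) (mul_nonneg (pow_nonneg hl 1) (pow_nonneg hh 3))
  have z2 := mul_nonneg (zero_le_one (α := ℝ)) (mul_nonneg (pow_nonneg hl 2) (pow_nonneg hh 2))
  have z3 := mul_nonneg (zero_le_one (α := ℝ)) (mul_nonneg (pow_nonneg hl 3) (pow_nonneg hh 1))
  have z4 := mul_nonneg (zero_le_one (α := ℝ)) (mul_nonneg (pow_nonneg hl 4) (pow_nonneg hh 0))
  norm_num [parE, Par.F, pY, pT]
  linarith

end Vale.Agent.P237.Five
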