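import Vale.Agent.P237.Five.Main
import Vale.Agent.P237.Gen.Equality.Euclid
import Vale.Agent.P237.Gen.Equality.Contact

/-!
Equality in Petty's inequality in dimension five: exactly the ellipsoids.
The sign of the derivative along the path enters as the hypothesis `DPsiNonneg`, proved in
`Segment`.
-/

open MeasureTheory Set
open Vale.Agent.P237.Gen
open Vale.Agent.P237.Gen.Contact (pw semi Adm excess)

namespace Vale.Agent.P237.Five

noncomputable section

theorem contactEq_four (hd : DPsiNonneg) : Gen.Eq.ContactEq 4 (pcN (4 + 1) / pcN 4) := by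
  refine Gen.Eq.contactEq_of_profile (by norm_num) fun f hf h0 hle => ?_
  have hmain := (stageLemma_of_dpsi hd f hf (constraint hf h0)).2
  simp only [pw_four_semi, Four.pw_three_semi, show (4:ℕ) - 1 = 3 from rfl] at hle ⊢
  by_contra hne
  have hlo := Four.pw_semi_le hf 4
  rw [pw_four_semi] at hlo
  have hlt := lt_of_le_of_ne hlo (Ne.symm hne)
  have h1 := hmain (by linarith)
  have hpi := Real.pi_pos
  rw [mul_pow, mul_pow, div_pow (16:ℝ), div_mul_eq_mul_div _ ((3 * Real.pi) ^ 4),
    lt_div_iff₀ (by positivity)] at h1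
  linarith

theorem petty_five_body (hd : DPsiNonneg) : Gen.Eq.Petty 4 (pcN 4 * (pcN (4 + 1) / pcN 4)) := by
  intro K hK
  rw [mul_div_cancel₀ _ (pcN_pos 4).ne']
  exact petty_of_sharpContact 5 (by norm_num) (sharpContact_upto (stageLemma_of_dpsi hd))
    K hK.2.1 hK.1

theorem petty_four_fin : ∀ S : Set (Fin 4 → ℝ), IsCompact S → Convex ℝ S →
    pcN 4 * volume.real S ^ (4 - 1) ≤ volume.real (AllN.piSet S) :=
  petty_of_sharpContact 4 (by norm_num) fun n h2 h4 => by
    interval_cases n
    · exact Four.sharpContact_two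
    · exact Four.sharpContact_three Four.stage_lemma

/-- **Petty's inequality in dimension five with its equality cases.** -/
theorem petty_five_eq_iff (hd : DPsiNonneg) {K : Set (EuclideanSpace ℝ (Fin 5))}
    (hc : Convex ℝ K) (hk : IsCompact K) (hi : (interior K).Nonempty) :
    volume.real (Every.projBody K) = Every.kappa 4 ^ 5 / Every.kappa 5 ^ 3 * volume.real K ^ 4 ↔
      ∃ (a : EuclideanSpace ℝ (Fin 5))
        (T : EuclideanSpace ℝ (Fin 5) ≃ₗ[ℝ] EuclideanSpace ℝ (Fin 5)),
        K = (fun x => a + T x) '' Metric.closedBall 0 1 :=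
  Gen.Eq.projBody_eq_iff (n := 4) (by norm_num) (pcN_pos 4) (div_pos (pcN_pos 5) (pcN_pos 4))
    (mul_div_cancel₀ _ (pcN_pos 4).ne') petty_four_fin (petty_five_body hd) (contactEq_four hd)
    hc hk hi

end

end Vale.Agent.P237.Five
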