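import Vale.Agent.P237.Five.Segment

/-!
# The gain left of the tangent segment, in `ℝ⁵`
-/

namespace Vale.Agent.P237.Five

open Set MeasureTheory Profile
open scoped Real

/-- Monotonicity of a combination of a cube and a fourth power. -/
lemma mix_mono {α γ l y B : ℝ} (hl : 0 ≤ l) (hly : l ≤ y) (hyB : y ≤ B) (hα : 0 ≤ α)
    (h : 0 ≤ 3 * α + 4 * γ * B) : α * l ^ 3 + γ * l ^ 4 ≤ α * y ^ 3 + γ * y ^ 4 := by
  have hy := hl.trans hly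
  have h3 : 0 ≤ y ^ 3 - l ^ 3 := sub_nonneg.2 (pow_le_pow_left₀ hl hly 3)
  have h4 : 0 ≤ y ^ 4 - l ^ 4 := sub_nonneg.2 (pow_le_pow_left₀ hl hly 4)
  rcases le_total 0 γ with hγ | hγ
  · linarith [mul_nonneg hα h3, mul_nonneg hγ h4]
  · have e : 4 * y * (y ^ 3 - l ^ 3) - 3 * (y ^ 4 - l ^ 4)
        = (y - l) * ((y ^ 3 - l ^ 3) + l * (y ^ 2 - l ^ 2) + l ^ 2 * (y - l)) := by ring
    have h2 : 0 ≤ y ^ 2 - l ^ 2 := sub_nonneg.2 (pow_le_pow_left₀ hl hly 2)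
    have hd : 0 ≤ y - l := sub_nonneg.2 hly
    have : 0 ≤ (y - l) * ((y ^ 3 - l ^ 3) + l * (y ^ 2 - l ^ 2) + l ^ 2 * (y - l)) := by positivity
    rw [← e] at this
    have h5 := mul_le_mul_of_nonneg_right hyB h3
    have h6 : 3 * (y ^ 4 - l ^ 4) ≤ 4 * B * (y ^ 3 - l ^ 3) := by linarith
    have h7 := mul_le_mul_of_nonpos_left h6 hγ
    have h8 := mul_nonneg h h3
    linarith

/-- The cube of the semicircle is below the polynomial used by the certificate. -/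
lemma sqrt_cube_le {t : ℝ} (h0 : 0 ≤ t) (h1 : t ≤ 1) :
    √(1 - t ^ 2) ^ 3 ≤ 1 - 3/2 * t ^ 2 + 3/8 * t ^ 4 + 1/8 * t ^ 6 := by
  have hu : t ^ 2 ≤ 1 := pow_le_one₀ h0 h1
  have hs := Real.sq_sqrt (show (0:ℝ) ≤ 1 - t ^ 2 by linarith)
  have hb : √(1 - t ^ 2) ≤ 1 - t ^ 2 / 2 - t ^ 4 / 8 := by
    have h4 : t ^ 4 ≤ 1 := pow_le_one₀ h0 h1
    rw [Real.sqrt_le_left (by linarith)]
    nlinarith [pow_nonneg h0 6, pow_nonneg h0 8]
  calc √(1 - t ^ 2) ^ 3 = (1 - t ^ 2) * √(1 - t ^ 2) := by rw [pow_succ, hs]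
    _ ≤ (1 - t ^ 2) * (1 - t ^ 2 / 2 - t ^ 4 / 8) :=
        mul_le_mul_of_nonneg_left hb (by linarith)
    _ = _ := by ring

variable {g : ℝ → ℝ} {p q : ℝ}

lemma gI (hg : Profile.Adm g) (k : ℕ) {a b : ℝ} (ha : 0 ≤ a) (hab : a ≤ b) (hb : b ≤ 1)
    {w : ℝ → ℝ} (hw : Continuous w) :
    IntervalIntegrable (fun t => w t * (g t ^ k - √(1 - t ^ 2) ^ k)) volume a b := by
  refine (IntervalIntegrable.sub ?_
    ((by fun_prop : Continuous fun t : ℝ => √(1 - t ^ 2) ^ k).intervalIntegrable a b)).continuousOn_mul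
    hw.continuousOn
  refine AntitoneOn.intervalIntegrable ?_
  rw [uIcc_of_le hab]
  intro u hu v hv huv
  exact pow_le_pow_left₀ (hg.nonneg (Icc_subset_Icc ha hb hv))
    (hg.anti (Icc_subset_Icc ha hb hu) (Icc_subset_Icc ha hb hv) huv) k

/-- The gain left of the segment, weighted by `κ`, `γ₀`, `γ₂`. -/
noncomputable def leftW (g : ℝ → ℝ) (κ γ0 γ2 p : ℝ) : ℝ :=
  κ * (∫ t in (0:ℝ)..p, (g t ^ 3 - √(1 - t ^ 2) ^ 3))
    + γ0 * (∫ t in (0:ℝ)..p, (g t ^ 4 - √(1 - t ^ 2) ^ 4))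
    + γ2 * ∫ t in (0:ℝ)..p, t ^ 2 * (g t ^ 4 - √(1 - t ^ 2) ^ 4)

/-- A comparison line below the profile gives a lower bound for the weighted gain. -/
lemma left_bound (hg : Profile.Adm g) (h : Seg g p q) {κ γ0 γ2 r : ℝ} (hκ : 0 ≤ κ)
    (hc0 : 0 ≤ 3 * κ + 4 * γ0 / √(1 - q ^ 2))
    (hc1 : 0 ≤ 3 * κ + 4 * (γ0 + γ2 * p ^ 2) / √(1 - q ^ 2))
    (hr0 : 0 ≤ r) (hr : r ≤ p) (l : ℝ → ℝ) (hl : Continuous l)
    (hlg : ∀ t ∈ Ioo r p, 0 ≤ l t ∧ l t ≤ g t) :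
    κ * (∫ t in r..p, (l t ^ 3 - (1 - 3/2 * t ^ 2 + 3/8 * t ^ 4 + 1/8 * t ^ 6)))
      + γ0 * (∫ t in r..p, (l t ^ 4 - (1 - t ^ 2) ^ 2))
      + γ2 * (∫ t in r..p, t ^ 2 * (l t ^ 4 - (1 - t ^ 2) ^ 2)) ≤ leftW g κ γ0 γ2 p := by
  have hp1 : p ≤ 1 := by linarith [h.hpq, h.hq]
  have hS : 0 < √(1 - q ^ 2) := sqrt_pos_of (by linarith [h.q_pos]) h.hq
  have I3 : ∀ a b, 0 ≤ a → a ≤ b → b ≤ 1 →
      IntervalIntegrable (fun t => g t ^ 3 - √(1 - t ^ 2) ^ 3) volume a b := fun a b ha hab hb => by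
    simpa using gI hg 3 ha hab hb (continuous_const (y := (1:ℝ)))
  have I4 : ∀ a b, 0 ≤ a → a ≤ b → b ≤ 1 →
      IntervalIntegrable (fun t => g t ^ 4 - √(1 - t ^ 2) ^ 4) volume a b := fun a b ha hab hb => by
    simpa using gI hg 4 ha hab hb (continuous_const (y := (1:ℝ)))
  have I5 : ∀ a b, 0 ≤ a → a ≤ b → b ≤ 1 →
      IntervalIntegrable (fun t => t ^ 2 * (g t ^ 4 - √(1 - t ^ 2) ^ 4)) volume a b :=
    fun a b ha hab hb => gI hg 4 ha hab hb (continuous_pow 2)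
  set F := fun t => κ * (g t ^ 3 - √(1 - t ^ 2) ^ 3) + γ0 * (g t ^ 4 - √(1 - t ^ 2) ^ 4)
    + γ2 * (t ^ 2 * (g t ^ 4 - √(1 - t ^ 2) ^ 4)) with hF
  have hFI : ∀ a b, 0 ≤ a → a ≤ b → b ≤ 1 → IntervalIntegrable F volume a b := fun a b ha hab hb =>
    (((I3 a b ha hab hb).const_mul κ).add ((I4 a b ha hab hb).const_mul γ0)).add
      ((I5 a b ha hab hb).const_mul γ2)
  have eF : leftW g κ γ0 γ2 p = ∫ t in (0:ℝ)..p, F t := by
    rw [leftW, hF, intervalIntegral.integral_add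
      (((I3 0 p le_rfl h.hp hp1).const_mul κ).add ((I4 0 p le_rfl h.hp hp1).const_mul γ0))
      ((I5 0 p le_rfl h.hp hp1).const_mul γ2),
      intervalIntegral.integral_add ((I3 0 p le_rfl h.hp hp1).const_mul κ)
        ((I4 0 p le_rfl h.hp hp1).const_mul γ0)]
    simp only [intervalIntegral.integral_const_mul]
  have hmon : ∀ t ∈ Ioo (0:ℝ) p, ∀ y, 0 ≤ y → y ≤ g t →
      κ * y ^ 3 + (γ0 + γ2 * t ^ 2) * y ^ 4 ≤ κ * g t ^ 3 + (γ0 + γ2 * t ^ 2) * g t ^ 4 := by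
    intro t ht y hy hyg
    refine mix_mono hy hyg (B := 1 / √(1 - q ^ 2)) ?_ hκ ?_
    · refine (h.below t ht).trans ?_
      unfold tang
      exact div_le_div_of_nonneg_right (by linarith [mul_nonneg h.q_pos.le ht.1.le]) hS.le
    · have ht2 : t ^ 2 ≤ p ^ 2 := pow_le_pow_left₀ ht.1.le ht.2.le 2
      rcases le_total 0 γ2 with hγ | hγ
      · have : 0 ≤ 4 * (γ2 * t ^ 2) / √(1 - q ^ 2) := by positivity
        have e : 3 * κ + 4 * (γ0 + γ2 * t ^ 2) * (1 / √(1 - q ^ 2))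
            = 3 * κ + 4 * γ0 / √(1 - q ^ 2) + 4 * (γ2 * t ^ 2) / √(1 - q ^ 2) := by ring
        linarith
      · have := div_le_div_of_nonneg_right
          (mul_le_mul_of_nonpos_left ht2 hγ) hS.le
        have e : 3 * κ + 4 * (γ0 + γ2 * t ^ 2) * (1 / √(1 - q ^ 2))
            = 3 * κ + 4 * γ0 / √(1 - q ^ 2) + 4 * (γ2 * t ^ 2 / √(1 - q ^ 2)) := by ring
        have e' : 3 * κ + 4 * (γ0 + γ2 * p ^ 2) / √(1 - q ^ 2)
            = 3 * κ + 4 * γ0 / √(1 - q ^ 2) + 4 * (γ2 * p ^ 2 / √(1 - q ^ 2)) := by ring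
        linarith
  have h0 : 0 ≤ ∫ t in (0:ℝ)..r, F t := by
    have := ii_mono hr0 intervalIntegrable_const (hFI 0 r le_rfl hr0 (hr.trans hp1))
      (f := fun _ => (0:ℝ)) fun t ht => by
        have := hmon t ⟨ht.1, ht.2.trans_le hr⟩ _ (Real.sqrt_nonneg _)
          (hg.ge t ⟨ht.1.le, by linarith [ht.2]⟩)
        simp only [hF]
        linarith
    simpa using this
  set e6 := fun t : ℝ => (1 - 3/2 * t ^ 2 + 3/8 * t ^ 4 + 1/8 * t ^ 6) with he6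
  have c3 : Continuous fun t => l t ^ 3 - e6 t := by rw [he6]; fun_prop
  have c4 : Continuous fun t => l t ^ 4 - (1 - t ^ 2) ^ 2 := by fun_prop
  have c5 : Continuous fun t => t ^ 2 * (l t ^ 4 - (1 - t ^ 2) ^ 2) := by fun_prop
  set G := fun t => κ * (l t ^ 3 - e6 t) + γ0 * (l t ^ 4 - (1 - t ^ 2) ^ 2)
    + γ2 * (t ^ 2 * (l t ^ 4 - (1 - t ^ 2) ^ 2)) with hG
  have hlow : ∫ t in r..p, G t ≤ ∫ t in r..p, F t := by
    refine ii_mono hr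
      ((((c3.intervalIntegrable _ _).const_mul κ).add ((c4.intervalIntegrable _ _).const_mul γ0)).add
        ((c5.intervalIntegrable _ _).const_mul γ2)) (hFI r p hr0 hr hp1) fun t ht => ?_
    have h1 := hmon t ⟨hr0.trans_lt ht.1, ht.2⟩ _ (hlg t ht).1 (hlg t ht).2
    have ht0 : 0 ≤ t := hr0.trans ht.1.le
    have ht1 : t ≤ 1 := ht.2.le.trans hp1
    have h2 := mul_le_mul_of_nonneg_left (sqrt_cube_le ht0 ht1) hκ
    simp only [hF, hG, he6, sqrt_pow_four ht0 ht1]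
    linarith
  have eG : ∫ t in r..p, G t = κ * (∫ t in r..p, (l t ^ 3 - e6 t))
      + γ0 * (∫ t in r..p, (l t ^ 4 - (1 - t ^ 2) ^ 2))
      + γ2 * ∫ t in r..p, t ^ 2 * (l t ^ 4 - (1 - t ^ 2) ^ 2) := by
    rw [hG, intervalIntegral.integral_add
      (((c3.intervalIntegrable _ _).const_mul κ).add ((c4.intervalIntegrable _ _).const_mul γ0))
      ((c5.intervalIntegrable _ _).const_mul γ2),
      intervalIntegral.integral_add ((c3.intervalIntegrable _ _).const_mul κ)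
        ((c4.intervalIntegrable _ _).const_mul γ0)]
    simp only [intervalIntegral.integral_const_mul]
  rw [eF, ← intervalIntegral.integral_add_adjacent_intervals (hFI 0 r le_rfl hr0 (hr.trans hp1))
    (hFI r p hr0 hr hp1)]
  simp only [he6] at eG
  linarith

lemma ii_scale {p : ℝ} (r : ℝ) (f : ℝ → ℝ) :
    ∫ t in r * p..p, f t = p * ∫ s in r..1, f (p * s) := by
  have := intervalIntegral.smul_integral_comp_mul_left f p (a := r) (b := 1)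
  rw [smul_eq_mul, mul_one, mul_comm p r] at this
  exact this.symm

variable (p d r : ℝ) {c0 c1 : ℝ}

lemma line_cube :
    ∫ s in r..1, ((c0 + c1 * s) ^ 3 - (1 - 3/2 * (p * s) ^ 2 + 3/8 * (p * s) ^ 4
        + 1/8 * (p * s) ^ 6))
      = (c0 ^ 3 - 1) * (1 - r) + 3 * c0 ^ 2 * c1 * ((1 - r ^ 2) / 2)
        + (3 * c0 * c1 ^ 2 + 3/2 * p ^ 2) * ((1 - r ^ 3) / 3) + c1 ^ 3 * ((1 - r ^ 4) / 4)
        + -(3/8 * p ^ 4) * ((1 - r ^ 5) / 5) + -(1/8 * p ^ 6) * ((1 - r ^ 7) / 7) := by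
  rw [intervalIntegral.integral_congr (g := fun s => (c0 ^ 3 - 1) + 3 * c0 ^ 2 * c1 * s
    + (3 * c0 * c1 ^ 2 + 3/2 * p ^ 2) * s ^ 2 + c1 ^ 3 * s ^ 3 + -(3/8 * p ^ 4) * s ^ 4
    + 0 * s ^ 5 + -(1/8 * p ^ 6) * s ^ 6 + 0 * s ^ 7) ?_, ii_poly7]
  · ring
  · intro s _
    ring

lemma line_four :
    ∫ s in r..1, ((c0 + c1 * s) ^ 4 - (1 - (p * s) ^ 2) ^ 2)
      = (c0 ^ 4 - 1) * (1 - r) + 4 * c0 ^ 3 * c1 * ((1 - r ^ 2) / 2)
        + (6 * c0 ^ 2 * c1 ^ 2 + 2 * p ^ 2) * ((1 - r ^ 3) / 3)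
        + 4 * c0 * c1 ^ 3 * ((1 - r ^ 4) / 4) + (c1 ^ 4 - p ^ 4) * ((1 - r ^ 5) / 5) := by
  rw [intervalIntegral.integral_congr (g := fun s => (c0 ^ 4 - 1) + 4 * c0 ^ 3 * c1 * s
    + (6 * c0 ^ 2 * c1 ^ 2 + 2 * p ^ 2) * s ^ 2 + 4 * c0 * c1 ^ 3 * s ^ 3
    + (c1 ^ 4 - p ^ 4) * s ^ 4 + 0 * s ^ 5 + 0 * s ^ 6 + 0 * s ^ 7) ?_, ii_poly7]
  · ring
  · intro s _
    ring

lemma line_wfour :
    ∫ s in r..1, (p * s) ^ 2 * ((c0 + c1 * s) ^ 4 - (1 - (p * s) ^ 2) ^ 2)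
      = p ^ 2 * ((c0 ^ 4 - 1) * ((1 - r ^ 3) / 3) + 4 * c0 ^ 3 * c1 * ((1 - r ^ 4) / 4)
        + (6 * c0 ^ 2 * c1 ^ 2 + 2 * p ^ 2) * ((1 - r ^ 5) / 5)
        + 4 * c0 * c1 ^ 3 * ((1 - r ^ 6) / 6) + (c1 ^ 4 - p ^ 4) * ((1 - r ^ 7) / 7)) := by
  rw [intervalIntegral.integral_congr (g := fun s => 0 + 0 * s + p ^ 2 * (c0 ^ 4 - 1) * s ^ 2
    + p ^ 2 * (4 * c0 ^ 3 * c1) * s ^ 3 + p ^ 2 * (6 * c0 ^ 2 * c1 ^ 2 + 2 * p ^ 2) * s ^ 4
    + p ^ 2 * (4 * c0 * c1 ^ 3) * s ^ 5 + p ^ 2 * (c1 ^ 4 - p ^ 4) * s ^ 6 + 0 * s ^ 7)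
    ?_, ii_poly7]
  · ring
  · intro s _
    ring

variable {p}

/-- The left gains of the certificate are lower bounds. -/
lemma left_choice (hg : Profile.Adm g) (h : Seg g p q) {κ γ0 γ2 : ℝ} (hκ : 0 ≤ κ)
    (hc0 : 0 ≤ 3 * κ + 4 * γ0 / √(1 - q ^ 2))
    (hc1 : 0 ≤ 3 * κ + 4 * (γ0 + γ2 * p ^ 2) / √(1 - q ^ 2)) (c : Ch) :
    κ * i3G kR sR c p (p * p) (tang q p - 1) + γ0 * i4G kR sR c p (p * p) (tang q p - 1)
      + γ2 * i5G kR sR c p (p * p) (tang q p - 1) ≤ leftW g κ γ0 γ2 p := by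
  have hy0 : 0 ≤ tang q p := (Real.sqrt_nonneg _).trans (sqrt_le_tang (by linarith [h.q_pos]) h.hq
    (by nlinarith [h.hq, h.q_pos, h.hp, h.hpq]))
  set d := tang q p - 1 with hd
  have key : ∀ r c0 c1, 0 ≤ r → r ≤ 1 → (0 < p → ∀ t ∈ Ioo (r * p) p,
      0 ≤ c0 + c1 * (t / p) ∧ c0 + c1 * (t / p) ≤ g t) →
      κ * (p * ∫ s in r..1, ((c0 + c1 * s) ^ 3 - (1 - 3/2 * (p * s) ^ 2 + 3/8 * (p * s) ^ 4
        + 1/8 * (p * s) ^ 6)))
        + γ0 * (p * ∫ s in r..1, ((c0 + c1 * s) ^ 4 - (1 - (p * s) ^ 2) ^ 2))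
        + γ2 * (p * ∫ s in r..1, (p * s) ^ 2 * ((c0 + c1 * s) ^ 4 - (1 - (p * s) ^ 2) ^ 2))
        ≤ leftW g κ γ0 γ2 p := by
    intro r c0 c1 hr0 hr1 hline
    rcases h.hp.eq_or_lt with e | hp
    · simp [← e, leftW]
    · have hb := left_bound hg h hκ hc0 hc1 (mul_nonneg hr0 hp.le)
        (mul_le_of_le_one_left hp.le hr1) (fun t => c0 + c1 * (t / p)) (by fun_prop)
        (hline hp)
      rw [ii_scale r, ii_scale r, ii_scale r] at hb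
      simpa [mul_div_assoc, hp.ne'] using hb
  have hch : ∀ r, 0 ≤ r → 0 < p → ∀ t ∈ Ioo (r * p) p,
      0 ≤ 1 + d * (t / p) ∧ 1 + d * (t / p) ≤ g t := by
    intro r hr0 hp t ht
    have ht0 : 0 < t := lt_of_le_of_lt (mul_nonneg hr0 hp.le) ht.1
    have hs : t / p ≤ 1 := (div_le_one hp).2 ht.2.le
    refine ⟨?_, (h.ge_chord hg ⟨ht0, ht.2⟩).2⟩
    have e : 1 + d * (t / p) = (1 - t / p) + tang q p * (t / p) := by rw [hd]; ring
    rw [e]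
    exact add_nonneg (sub_nonneg.2 hs) (mul_nonneg hy0 (div_nonneg ht0.le hp.le))
  cases c with
  | none =>
    have hb := left_bound hg h hκ hc0 hc1 h.hp le_rfl (fun _ => 0) continuous_const
      (fun t ht => absurd (ht.1.trans ht.2) (lt_irrefl p))
    simpa [i3G, i4G, i5G, kR] using hb
  | chord =>
    have hb := key 0 1 d le_rfl zero_le_one (hch 0 le_rfl)
    rw [line_cube, line_four, line_wfour] at hb
    simp only [i3G, i4G, i5G, kR, sR]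
    push_cast
    linarith
  | half =>
    have hb := key (5/8) 1 d (by norm_num) (by norm_num) (hch (5/8) (by norm_num))
    rw [line_cube, line_four, line_wfour] at hb
    simp only [i3G, i4G, i5G, kR, sR]
    push_cast
    linarith
  | flat =>
    have hb := key 0 (1 + d) 0 le_rfl zero_le_one fun hp t ht => by
      simp only [zero_mul, add_zero, hd, add_sub_cancel]
      exact ⟨hy0, (h.ge_chord hg ⟨by simpa using ht.1, ht.2⟩).1⟩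
    rw [line_cube, line_four, line_wfour] at hb
    simp only [i3G, i4G, i5G, kR, sR]
    push_cast
    linarith

end Vale.Agent.P237.Five
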