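import Vale.Agent.P237.Four.Equality

/-!
Petty's inequality in dimension five from the one-variable inequality for profiles.
-/

open MeasureTheory Set
open Vale.Agent.P237.Gen
open Vale.Agent.P237.Gen.Contact (pw semi Adm excess)

namespace Vale.Agent.P237.Five

noncomputable section

/-- The one-variable inequality in slice dimension four: a profile with at least the second moment
of the ball of the same volume has at least its flatness, and more unless it is the ball. -/
def StageLemma : Prop :=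
  ∀ g, Adm g →
    (15 / 8 * pw 4 g) ^ 7 ≤ (105 / 8 * ∫ t in (0:ℝ)..1, t ^ 2 * g t ^ 4) ^ 5 →
    (15 / 8 * pw 4 g) ^ 3 ≤ (16 / (3 * Real.pi) * pw 3 g) ^ 4 ∧
      (1 < 15 / 8 * pw 4 g → (15 / 8 * pw 4 g) ^ 3 < (16 / (3 * Real.pi) * pw 3 g) ^ 4)

theorem pw_four_semi : pw 4 semi = 8 / 15 := by
  have h0 := Four.pw_two_semi
  have h := GN.gnS_step 2
  norm_num at h
  rw [GN.gnS_eq_pw, GN.gnS_eq_pw] at h
  linarith

theorem constraint {f : ℝ → ℝ} (hf : Adm f) (h : 0 ≤ excess 4 f) :
    (15 / 8 * pw 4 f) ^ 7 ≤ (105 / 8 * ∫ t in (0:ℝ)..1, t ^ 2 * f t ^ 4) ^ 5 := by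
  have hm := Four.moment_of_excess hf h
  rw [pw_four_semi] at hm
  norm_num at hm
  have hW : 0 < pw 4 f := (Contact.pw_semi_pos 4).trans_le (Four.pw_semi_le hf 4)
  set R := 15 / 8 * pw 4 f with hR
  have hR0 : 0 ≤ R := by positivity
  have e : pw 4 f / (8 / 15) = R := by rw [hR]; ring
  have h1 : R ^ (2 / 5 : ℝ) * R ≤ 105 / 8 * ∫ t in (0:ℝ)..1, t ^ 2 * f t ^ 4 := by
    rw [e] at hm
    calc R ^ (2 / 5 : ℝ) * R = 15 / 8 * (R ^ (2 / 5 : ℝ) * pw 4 f) := by rw [hR]; ring
      _ ≤ 15 / 8 * (7 * ∫ t in (0:ℝ)..1, t ^ 2 * f t ^ 4) := by linarith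
      _ = _ := by ring
  have h5 : (R ^ (2 / 5 : ℝ)) ^ 5 = R ^ 2 := by
    rw [← Real.rpow_natCast, ← Real.rpow_mul hR0]
    norm_num
  calc R ^ 7 = (R ^ (2 / 5 : ℝ) * R) ^ 5 := by rw [mul_pow (R ^ (2 / 5 : ℝ)) R 5, h5]; ring
    _ ≤ _ := pow_le_pow_left₀ (mul_nonneg (Real.rpow_nonneg hR0 _) hR0) h1 5

theorem sharpContact_four (hS : StageLemma) : SharpContact 4 := by
  refine sharpContact_of_profile (by norm_num) zero_le_one le_rfl fun f hf hψ => ?_
  have h0 : 0 ≤ excess 4 f := by
    simpa using hψ 0 contDiff_const fun t => by simp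
  have hmain := (hS f hf (constraint hf h0)).1
  simp only [pw_four_semi, Four.pw_three_semi, show (4:ℕ) - 1 = 3 from rfl]
  have hpi := Real.pi_pos
  rw [mul_pow, mul_pow, div_pow (16:ℝ), div_mul_eq_mul_div _ ((3 * Real.pi) ^ 4),
    le_div_iff₀ (by positivity)] at hmain
  linarith

theorem sharpContact_upto (hS : StageLemma) : ∀ n, 2 ≤ n → n < 5 → SharpContact n := by
  intro n h2 h5
  interval_cases n
  · exact Four.sharpContact_two
  · exact Four.sharpContact_three Four.stage_lemma
  · exact sharpContact_four hS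

/-- **Petty's inequality in dimension five**, given the one-variable inequality. -/
theorem petty_five (hS : StageLemma) {K : Set (EuclideanSpace ℝ (Fin 5))}
    (hc : Convex ℝ K) (hk : IsCompact K) :
    Every.kappa 4 ^ 5 / Every.kappa 5 ^ 3 * volume.real K ^ 4 ≤
      volume.real (Every.projBody K) := by
  have hk' : IsCompact (WithLp.ofLp '' K) := hk.image (PiLp.continuous_ofLp 2 _)
  have hc' : Convex ℝ (WithLp.ofLp '' K) :=
    hc.linear_image (WithLp.linearEquiv 2 ℝ (Fin 5 → ℝ)).toLinearMap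
  have h := petty_of_sharpContact 5 (by norm_num) (sharpContact_upto hS) (WithLp.ofLp '' K) hk' hc'
  have hvK : volume.real (WithLp.ofLp '' K) = volume.real K := by
    have e : K = WithLp.ofLp ⁻¹' (WithLp.ofLp '' K) :=
      (preimage_image_eq K (WithLp.ofLp_injective 2)).symm
    conv_rhs => rw [e]
    rw [measureReal_def, measureReal_def,
      (PiLp.volume_preserving_ofLp (Fin 5)).measure_preimage
        hk'.measurableSet.nullMeasurableSet]
  rw [hvK] at h
  change _ ≤ volume.real (Gen.projBody K)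
  rw [Gen.projBody_eq hc hk, measureReal_def (s := WithLp.ofLp ⁻¹' _),
    (PiLp.volume_preserving_ofLp (Fin 5)).measure_preimage
      (show IsCompact (AllN.piSet (WithLp.ofLp '' K)) from
        AllN.isCompact_sub _).measurableSet.nullMeasurableSet, ← measureReal_def]
  exact h

end

end Vale.Agent.P237.Five
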