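import Vale.Agent.P237.Five.Deriv
import Vale.Agent.P237.Five.Wiring
import Vale.Agent.P237.Five.Ends

/-!
The one-variable inequality for `ℝ⁵`, from the sign of the derivative along the path.
-/

namespace Vale.Agent.P237.Five

open Set MeasureTheory Filter Profile
open scoped Topology Real
open Gen.Contact (pw semi)

noncomputable section

variable {g : ℝ → ℝ}

/-- The sign of the derivative along the path. -/
def DPsiNonneg : Prop :=
  ∀ P : Par, IsPar P → ∀ g, Profile.Adm g → ∀ q : ℝ, 0 ≤ q → q < 1 →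
    15 / 8 * (∫ t in (0:ℝ)..1, g t ^ 4) ≤ (P.xb : ℝ) / 100 → 0 ≤ dpsi P g q

lemma sq_moment_semi : (∫ t in (0:ℝ)..1, t ^ 2 * √(1 - t ^ 2) ^ 4) = 8 / 105 := by
  rw [intervalIntegral.integral_congr (g := fun t => t ^ 2 - 2 * t ^ 4 + t ^ 6) fun t ht => ?_]
  · have i2 : IntervalIntegrable (fun t : ℝ => t ^ 2) volume 0 1 :=
      intervalIntegral.intervalIntegrable_pow 2
    have i4 : IntervalIntegrable (fun t : ℝ => 2 * t ^ 4) volume 0 1 :=
      (intervalIntegral.intervalIntegrable_pow 4).const_mul 2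
    have i6 : IntervalIntegrable (fun t : ℝ => t ^ 6) volume 0 1 :=
      intervalIntegral.intervalIntegrable_pow 6
    rw [intervalIntegral.integral_add (i2.sub i4) i6, intervalIntegral.integral_sub i2 i4,
      intervalIntegral.integral_const_mul, integral_pow, integral_pow, integral_pow]
    norm_num
  · rw [uIcc_of_le (zero_le_one (α := ℝ))] at ht
    have h := Real.sq_sqrt (show (0:ℝ) ≤ 1 - t ^ 2 by nlinarith [ht.1, ht.2])
    simp only
    rw [show √(1 - t ^ 2) ^ 4 = (√(1 - t ^ 2) ^ 2) ^ 2 by ring, h]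
    ring

lemma psi_zero (hg : Profile.Adm g) (P : Par) : psi P g 0 = 0 := by
  have hd : dq g 0 = 0 := by
    rw [dq_eq, Four.wpow_zero hg]
    have := Four.pw_three_semi
    simp only [pw, semi] at this
    simp only [one_mul, this]
    field_simp
    ring
  have hx : xq g 0 = 0 := by
    rw [xq_eq, Four.wpow_zero hg]
    have := pw_four_semi
    simp only [pw, semi] at this
    simp only [one_mul, this]
    norm_num
  have ht : tq g 0 = 0 := by
    rw [tq_eq, Four.wpow_zero hg, sq_moment_semi]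
    norm_num
  simp [psi, Par.F, hd, hx, ht]

/-- The inequality between the two ends of the path. -/
theorem psi_ends (hd : DPsiNonneg) {P : Par} (hP : IsPar P) (hg : Profile.Adm g)
    (hW : 15 / 8 * (∫ t in (0:ℝ)..1, g t ^ 4) ≤ (P.xb : ℝ) / 100) :
    0 ≤ P.F (16 / (3 * π) * (∫ t in (0:ℝ)..1, g t ^ 3) - 1)
      (15 / 8 * (∫ t in (0:ℝ)..1, g t ^ 4) - 1)
      (105 / 8 * (∫ t in (0:ℝ)..1, t ^ 2 * g t ^ 4) - 1) := by
  have hmono : ∀ b ∈ Ico (0:ℝ) 1, psi P g 0 ≤ psi P g b := by
    intro b hb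
    have := image_le_of_deriv_right_le_deriv_boundary (f := fun q => -psi P g q)
      (f' := fun q => -dpsi P g q) (a := 0) (b := b) (continuousOn_psi hg P hb.2).neg
      (fun q hq => ((hasDeriv_psi hg P hq.1 (hq.2.trans hb.2)).Ici_of_Ioi).neg)
      (B := fun _ => -psi P g 0) (B' := fun _ => 0) le_rfl continuousOn_const
      (fun q _ => hasDerivWithinAt_const q _ _)
      (fun q hq => neg_nonpos.2 (hd P hP g hg q hq.1 (hq.2.trans hb.2) hW))
      (right_mem_Icc.2 hb.1)
    simpa using this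
  refine ge_of_tendsto (tendsto_psi hg P) (Filter.mem_of_superset (Ioo_mem_nhdsLT zero_lt_one)
    fun q hq => ?_)
  have := hmono q ⟨hq.1.le, hq.2⟩
  rwa [psi_zero hg] at this

lemma moment_le_third (hg : Profile.Adm g) (k : ℕ) :
    (∫ t in (0:ℝ)..1, t ^ 2 * g t ^ k) ≤ (∫ t in (0:ℝ)..1, g t ^ k) / 3 := by
  have hr : (0:ℝ) ≤ √(1/3) ∧ √(1/3) ≤ 1 :=
    ⟨Real.sqrt_nonneg _, Real.sqrt_le_one.2 (by norm_num)⟩
  have hr2 : √(1/3 : ℝ) ^ 2 = 1/3 := Real.sq_sqrt (by norm_num)
  set r := √(1/3 : ℝ)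
  have ha : AntitoneOn (fun t => g t ^ k) (Icc (0:ℝ) 1) :=
    fun u hu v hv huv => pow_le_pow_left₀ (hg.nonneg hv) (hg.anti hu hv huv) k
  have hle : ∀ t ∈ Icc (0:ℝ) 1, t ^ 2 * g t ^ k ≤ 1/3 * g t ^ k + g r ^ k * (t ^ 2 - 1/3) := by
    intro t ht
    rcases le_total t r with h | h
    · have h1 := ha ht hr h
      have h2 : t ^ 2 ≤ 1/3 := hr2 ▸ pow_le_pow_left₀ ht.1 h 2
      nlinarith
    · have h1 := ha hr ht h
      have h2 : 1/3 ≤ t ^ 2 := hr2 ▸ pow_le_pow_left₀ hr.1 h 2
      nlinarith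
  have hi : IntervalIntegrable (fun t => g t ^ k) volume 0 1 :=
    Four.pow_intervalIntegrable hg k
  have hc : IntervalIntegrable (fun t : ℝ => g r ^ k * (t ^ 2 - 1/3)) volume 0 1 :=
    (by fun_prop : Continuous fun t : ℝ => g r ^ k * (t ^ 2 - 1/3)).intervalIntegrable 0 1
  have h := intervalIntegral.integral_mono_on zero_le_one (hi.continuousOn_mul (by fun_prop))
    ((hi.const_mul _).add hc) hle
  rw [intervalIntegral.integral_add (hi.const_mul _) hc,
    intervalIntegral.integral_const_mul, intervalIntegral.integral_const_mul,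
    intervalIntegral.integral_sub ((by fun_prop : Continuous fun t : ℝ => t ^ 2).intervalIntegrable
      0 1) intervalIntegrable_const, integral_pow] at h
  norm_num at h
  linarith

lemma F_chord (P : Par) (d x a b t : ℝ) :
    (b - a) * P.F d x t = (b - t) * P.F d x a + (t - a) * P.F d x b
      - (P.b5 : ℝ) / 100000 * ((t - a) * (b - t) * (b - a)) := by
  unfold Par.F
  ring

/-- In one range of the volume ratio a profile below the target would contradict the functional. -/
lemma contra (hg : Profile.Adm g) (hd : DPsiNonneg) {P : Par} {R0 A B lo hi : ℝ} (hP : IsPar P)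
    (hb : (P.b6 : ℝ) * 7 / 3 ≤ P.c3) (hxb : hi ≤ (P.xb : ℝ) / 100)
    (hR0 : 0 < R0) (hA0 : 0 < A) (hA : R0 ^ 3 ≤ A ^ 4) (hB0 : 0 ≤ B) (hB : B ^ 5 ≤ R0 ^ 7)
    (hlo : -31/100 ≤ lo / R0 - 1) (hhi : hi / R0 - 1 ≤ 31/100)
    (hL : ∀ u : ℝ, 0 < R0 * (1 + u) - 1 → lo / R0 - 1 ≤ u → u ≤ hi / R0 - 1 →
      0 < u ∨ R0 ≠ 1 → P.F (A * pY u - 1) (R0 * (1 + u) - 1) (B * pT u - 1) < 0)
    (hU : ∀ u : ℝ, 0 < R0 * (1 + u) - 1 → lo / R0 - 1 ≤ u → u ≤ hi / R0 - 1 →
      0 < u ∨ R0 ≠ 1 → P.F (A * pY u - 1) (R0 * (1 + u) - 1) (7 / 3 * (R0 * (1 + u)) - 1) < 0)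
    (hmom : (15 / 8 * pw 4 g) ^ 7 ≤ (105 / 8 * ∫ t in (0:ℝ)..1, t ^ 2 * g t ^ 4) ^ 5)
    (h1 : 1 < 15 / 8 * pw 4 g) (hl : lo ≤ 15 / 8 * pw 4 g) (hh : 15 / 8 * pw 4 g ≤ hi) :
    (15 / 8 * pw 4 g) ^ 3 < (16 / (3 * π) * pw 3 g) ^ 4 := by
  by_contra hle
  rw [not_lt] at hle
  have hends := psi_ends hd hP hg (hh.trans hxb)
  change 0 ≤ P.F (16 / (3 * π) * pw 3 g - 1) (15 / 8 * pw 4 g - 1)
    (105 / 8 * (∫ t in (0:ℝ)..1, t ^ 2 * g t ^ 4) - 1) at hends
  have h3 := moment_le_third hg 4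
  change (∫ t in (0:ℝ)..1, t ^ 2 * g t ^ 4) ≤ pw 4 g / 3 at h3
  have hT0 : 0 ≤ ∫ t in (0:ℝ)..1, t ^ 2 * g t ^ 4 :=
    intervalIntegral.integral_nonneg zero_le_one fun t _ => by positivity
  have hY0 : 0 ≤ 16 / (3 * π) * pw 3 g := by
    have : 0 ≤ pw 3 g := intervalIntegral.integral_nonneg zero_le_one fun t ht =>
      pow_nonneg (hg.nonneg ht) 3
    positivity
  set R := 15 / 8 * pw 4 g with hR
  set T := 105 / 8 * ∫ t in (0:ℝ)..1, t ^ 2 * g t ^ 4 with hT
  set Y := 16 / (3 * π) * pw 3 g with hY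
  obtain ⟨u, hu⟩ : ∃ u, R = R0 * (1 + u) := ⟨R / R0 - 1, by field_simp; ring⟩
  have hu1 : lo / R0 - 1 ≤ u := by
    rw [sub_le_iff_le_add, div_le_iff₀ hR0]; linarith
  have hu2 : u ≤ hi / R0 - 1 := by
    rw [le_sub_iff_add_le, le_div_iff₀ hR0]; linarith
  have hor : 0 < u ∨ R0 ≠ 1 := by
    rcases eq_or_ne R0 1 with e | e
    · left; subst e; linarith
    · exact Or.inr e
  have hp := pY_pos (hlo.trans hu1) (hu2.trans hhi)
  have hYle : Y ≤ A * pY u := by
    refine le_of_pow_le_pow_left₀ (show (4:ℕ) ≠ 0 by norm_num) (by positivity) (hle.trans ?_)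
    rw [hu, mul_pow, mul_pow]
    exact mul_le_mul hA (pY_pow (hlo.trans hu1) (hu2.trans hhi))
      (pow_nonneg (by linarith) 3) (by positivity)
  have hTle : B * pT u ≤ T := by
    by_contra hlt
    rw [not_le] at hlt
    have := pow_lt_pow_left₀ hlt (by positivity : 0 ≤ T) (show (5:ℕ) ≠ 0 by norm_num)
    have h2 : (B * pT u) ^ 5 ≤ R ^ 7 := by
      rw [hu, mul_pow, mul_pow]
      refine le_trans (mul_le_mul_of_nonneg_left
        (pT_pow (hlo.trans hu1) (hu2.trans hhi)) (pow_nonneg hB0 5)) ?_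
      exact mul_le_mul_of_nonneg_right hB (pow_nonneg (by linarith) 7)
    linarith
  have hx : 0 ≤ R - 1 := by linarith
  have hTU : T ≤ 7 / 3 * R := by rw [hT, hR]; linarith
  have hfd : 0 ≤ P.fd (R - 1) (T - 1) := by
    have hb0 : (0:ℝ) ≤ P.b6 := Nat.cast_nonneg _
    have hb1 := mul_le_mul_of_nonneg_left hTU hb0
    have hb2 := mul_le_mul_of_nonneg_right hb hx
    have hb3 : (P.b6 : ℝ) * 4 / 3 ≤ 100000 := by
      rcases hP with h | h | h | h | h <;> subst h <;> norm_num [parA, parB, parC, parD, parE]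
    unfold Par.fd
    linarith
  have hmonoY : P.F (Y - 1) (R - 1) (T - 1) ≤ P.F (A * pY u - 1) (R - 1) (T - 1) := by
    have := mul_nonneg (sub_nonneg.2 hYle) hfd
    unfold Par.F
    unfold Par.fd at this
    linarith
  have e1 := hL u (by rw [← hu]; linarith) hu1 hu2 hor
  have e2 := hU u (by rw [← hu]; linarith) hu1 hu2 hor
  rw [← hu] at e1 e2
  have hconv : P.F (A * pY u - 1) (R - 1) (T - 1) < 0 := by
    rcases hTle.eq_or_lt with e | e
    · rw [← e]; exact e1
    · have k0 : 0 < T - B * pT u := sub_pos.2 e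
      have k1 : 0 ≤ 7 / 3 * R - T := sub_nonneg.2 hTU
      have k := F_chord P (A * pY u - 1) (R - 1) (B * pT u - 1) (7 / 3 * R - 1) (T - 1)
      have k2 := mul_nonpos_of_nonneg_of_nonpos k1 e1.le
      have k3 := mul_neg_of_pos_of_neg k0 e2
      have k4 : 0 ≤ (P.b5 : ℝ) / 100000 * ((T - B * pT u) * (7 / 3 * R - T)
          * (7 / 3 * R - B * pT u)) :=
        mul_nonneg (by positivity) (mul_nonneg (mul_nonneg k0.le k1) (by linarith))
      refine neg_of_mul_neg_right (a := 7 / 3 * R - B * pT u) ?_ (by linarith)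
      ring_nf at k k2 k3 k4 ⊢
      linarith
  linarith

/-- **The one-variable inequality in slice dimension four**, given the sign of the derivative. -/
theorem stageLemma_of_dpsi (hd : DPsiNonneg) : StageLemma := by
  intro g hgA hmom
  have hg : Profile.Adm g := ⟨hgA.conc, hgA.anti, hgA.ge⟩
  have hR1 : 1 ≤ 15 / 8 * pw 4 g := by
    have := Four.pw_semi_le hgA 4
    rw [pw_four_semi] at this
    linarith
  have hY1 : 1 ≤ 16 / (3 * π) * pw 3 g := by
    have h := Four.pw_semi_le hgA 3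
    rw [Four.pw_three_semi] at h
    rw [div_mul_eq_mul_div, one_le_div (by positivity)]
    linarith
  have hlt : 1 < 15 / 8 * pw 4 g →
      (15 / 8 * pw 4 g) ^ 3 < (16 / (3 * π) * pw 3 g) ^ 4 := by
    intro h1
    have h3 := moment_le_third hg 4
    change (∫ t in (0:ℝ)..1, t ^ 2 * g t ^ 4) ≤ pw 4 g / 3 at h3
    have hT0 : 0 ≤ ∫ t in (0:ℝ)..1, t ^ 2 * g t ^ 4 :=
      intervalIntegral.integral_nonneg zero_le_one fun t _ => by positivity
    have htop : 15 / 8 * pw 4 g ≤ 208/25 := by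
      by_contra hbig
      rw [not_le] at hbig
      set R := 15 / 8 * pw 4 g with hR
      have h5 : R ^ 7 ≤ (7 / 3 * R) ^ 5 := by
        refine hmom.trans (pow_le_pow_left₀ (by positivity) ?_ 5)
        rw [hR]; linarith
      rw [mul_pow (7 / 3 : ℝ) R 5, show R ^ 7 = R ^ 2 * R ^ 5 from pow_add R 2 5] at h5
      have h2 := le_of_mul_le_mul_right h5 (by positivity)
      nlinarith [mul_lt_mul'' hbig hbig (by norm_num) (by norm_num)]
    rcases le_total (15 / 8 * pw 4 g) (6/5) with hA | hA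
    · exact contra hg hd (P := parA) (R0 := 1) (A := 1) (B := 1) (lo := 1) (hi := 6/5)
        (by simp [IsPar]) (by norm_num [parA]) (by norm_num [parA]) (by norm_num) (by norm_num)
        (by norm_num) (by norm_num) (by norm_num) (by norm_num) (by norm_num)
        (fun u _ hlu huh hu => endAL (hu.resolve_right (not_not.2 rfl)) (huh.trans (by norm_num)))
        (fun u _ hlu huh hu => endAU (hu.resolve_right (not_not.2 rfl)) (huh.trans (by norm_num)))
        hmom h1 h1.le hA
    rcases le_total (15 / 8 * pw 4 g) (8/5) with hB | hB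
    · exact contra hg hd (P := parB) (R0 := 7/5) (A := 64353/50000) (B := 160169/100000) (lo := 6/5) (hi := 8/5)
        (by simp [IsPar]) (by norm_num [parB]) (by norm_num [parB]) (by norm_num) (by norm_num)
        (by norm_num) (by norm_num) (by norm_num) (by norm_num) (by norm_num)
        (fun u _ hlu huh hu => endBL (le_trans (by norm_num) hlu) (huh.trans (by norm_num)))
        (fun u _ hlu huh hu => endBU (le_trans (by norm_num) hlu) (huh.trans (by norm_num)))
        hmom h1 hA hB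
    rcases le_total (15 / 8 * pw 4 g) (3) with hC | hC
    · exact contra hg hd (P := parC) (R0 := 23/10) (A := 93383/50000) (B := 40117/12500) (lo := 8/5) (hi := 3)
        (by simp [IsPar]) (by norm_num [parC]) (by norm_num [parC]) (by norm_num) (by norm_num)
        (by norm_num) (by norm_num) (by norm_num) (by norm_num) (by norm_num)
        (fun u _ hlu huh hu => endCL (le_trans (by norm_num) hlu) (huh.trans (by norm_num)))
        (fun u _ hlu huh hu => endCU (le_trans (by norm_num) hlu) (huh.trans (by norm_num)))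
        hmom h1 hB hC
    rcases le_total (15 / 8 * pw 4 g) (11/2) with hD | hD
    · exact contra hg hd (P := parD) (R0 := 17/4) (A := 74/25) (B := 758131/100000) (lo := 3) (hi := 11/2)
        (by simp [IsPar]) (by norm_num [parD]) (by norm_num [parD]) (by norm_num) (by norm_num)
        (by norm_num) (by norm_num) (by norm_num) (by norm_num) (by norm_num)
        (fun u _ hlu huh hu => endDL (le_trans (by norm_num) hlu) (huh.trans (by norm_num)))
        (fun u _ hlu huh hu => endDU (le_trans (by norm_num) hlu) (huh.trans (by norm_num)))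
        hmom h1 hC hD
    exact contra hg hd (P := parE) (R0 := 173/25) (A := 213329/50000) (B := 1500197/100000) (lo := 11/2) (hi := 208/25)
        (by simp [IsPar]) (by norm_num [parE]) (by norm_num [parE]) (by norm_num) (by norm_num)
        (by norm_num) (by norm_num) (by norm_num) (by norm_num) (by norm_num)
        (fun u _ hlu huh hu => endEL (le_trans (by norm_num) hlu) (huh.trans (by norm_num)))
        (fun u _ hlu huh hu => endEU (le_trans (by norm_num) hlu) (huh.trans (by norm_num)))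
        hmom h1 hD htop
  refine ⟨?_, hlt⟩
  rcases hR1.eq_or_lt with e | e
  · rw [← e, one_pow]; exact one_le_pow₀ hY1
  · exact (hlt e).le

end

end Vale.Agent.P237.Five
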