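import Vale.Agent.P237.Five.Defs
import Vale.Agent.P237.Profile.Stage

/-!
# The leaf test of the certificate for `ℝ⁵`

The quantities of a stage are written once, over a type with `+`, `-`, `*` and constants, so that
they can be read both as real numbers and as affine forms.
-/

namespace Vale.Agent.P237.Five

open Stage (AF N Rep rep_const)

section Generic

variable {α : Type} [Add α] [Sub α] [Mul α] (k : ℤ → ℕ → α) (sm : ℤ → ℕ → α → α) (P : Par)
  (S q m : α)

/-- `p`, the left end of the tangent segment. -/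
def pG : α := q - m * S

/-- The value of the tangent at `p`. -/
def lG : α := S + q * m

/-- The second moment of the tangent against its derivative, times `S / m²`. -/
def uG : α :=
  let t := q * m
  sm 1 2 (S * S) + t * (sm 2 3 S + sm 1 4 t)

/-- The third moment of the tangent against its derivative, times `S / m²`. -/
def cG : α :=
  let t := q * m
  let S2 := S * S
  sm 1 2 (S2 * S) + t * (S2 + t * (sm 3 4 S + sm 1 5 t))

/-- The weighted third moment of the tangent against its derivative, times `S / m²`. -/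
def wG : α :=
  let a := S * q
  let b := q * q - S * S
  let f := a * a
  let g := a * b
  let h := b * b - sm 2 1 f
  let u := sm (-2) 5 g + m * sm 1 6 f
  let u := sm 1 4 h + m * u
  let u := sm 2 3 g + m * u
  let u := sm 1 2 f + m * u
  let v := sm (-1) 3 g + m * sm 1 7 f
  let v := sm 1 5 h + m * v
  let v := sm 1 2 g + m * v
  let v := sm 1 3 f + m * v
  S * u + q * m * v

/-- The gain of the fourth power on the segment. -/
def s4G : α :=
  S * (m * m * m) * (sm 2 3 (S * S) + m * (S * q + sm 1 5 ((q * q - S * S) * m)))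

/-- The gain of the weighted fourth power on the segment. -/
def s5G : α :=
  let S2 := S * S
  let q2 := q * q
  let b := q2 - S2
  let a := S * q
  let f := S2 * q2
  let u := sm 1 3 (a * (sm 2 1 S2 - b)) + sm 1 7 (b * S2 * m)
  let u := sm 1 5 ((b * q2 - sm 8 1 f) + sm 2 1 (S2 * S2)) + m * u
  let u := a * b + m * u
  let u := sm 2 3 f + m * u
  S * (m * m * m) * u

/-- The gain of the cube on the segment. -/
def s3G : α :=
  let m2 := m * m
  let c := S * (m2 * m)
  c * (sm 1 2 S + sm 3 8 (q * m)) - sm 1 10 (m2 * m2 * m)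

/-- The four comparisons left of the segment: none, the chord, the chord beyond `5p/8`, and the
horizontal line. -/
inductive Ch where
  | none
  | chord
  | half
  | flat

/-- The gains of the fourth power, from `p`, `p²` and the excess of the tangent at `p`. -/
def i4G (c : Ch) (p p2 d : α) : α :=
  match c with
  | .none => k 0 1
  | .chord => p * (d * (k 2 1 + d * (k 2 1 + d * (k 1 1 + sm 1 5 d)))
      + p2 * (k 2 3 - sm 1 5 p2))
  | .half => p * (d * (k 39 32 + d * (k 387 256 + d * (k 3471 4096 + sm 29643 163840 d)))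
      + p2 * (k 129 256 - sm 29643 163840 p2))
  | .flat => p * (d * (k 4 1 + d * (k 6 1 + d * (k 4 1 + d))) + p2 * (k 2 3 - sm 1 5 p2))

/-- The gains of the weighted fourth power. -/
def i5G (c : Ch) (p p2 d : α) : α :=
  match c with
  | .none => k 0 1
  | .chord => p * (p2 * (d * (k 1 1 + d * (k 6 5 + d * (k 2 3 + sm 1 7 d)))
      + p2 * (k 2 5 - sm 1 7 p2)))
  | .half => p * (p2 * (d * (k 3471 4096 + d * (k 88929 81920 + d * (k 246519 393216
      + sm 2019027 14680064 d))) + p2 * (k 29643 81920 - sm 2019027 14680064 p2)))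
  | .flat => p * (p2 * (d * (k 4 3 + d * (k 2 1 + d * (k 4 3 + sm 1 3 d)))
      + p2 * (k 2 5 - sm 1 7 p2)))

/-- The gains of the cube. -/
def i3G (c : Ch) (p p2 d : α) : α :=
  match c with
  | .none => k 0 1
  | .chord => p * (d * (k 3 2 + d * (k 1 1 + sm 1 4 d))
      + p2 * (k 1 2 - p2 * (k 3 40 + sm 1 56 p2)))
  | .half => p * (d * (k 117 128 + d * (k 387 512 + sm 3471 16384 d))
      + p2 * (k 387 1024 - p2 * (k 88929 1310720 + sm 2019027 117440512 p2)))
  | .flat => p * (d * (k 3 1 + d * (k 3 1 + d)) + p2 * (k 1 2 - p2 * (k 3 40 + sm 1 56 p2)))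

variable (U C W : α)

/-- The value at zero excess. -/
def zeroG : α :=
  sm 5092958 1000000 U - sm (75 * P.a) 1000000 C - sm (525 * P.b0) 1000000 W

/-- The coefficient of `d`. -/
def kdG : α := sm (75 * P.c3) 1000000 C - sm (525 * P.b6) 1000000 W

/-- The coefficient of `x`. -/
def kxG : α :=
  sm (5092958 * P.c3) 100000000000 U + sm (150 * P.c4) 1000000 C - sm (525 * P.b1) 1000000 W

/-- The coefficient of `t`. -/
def ktG : α :=
  sm (1050 * P.b5) 1000000 W - sm (5092958 * P.b6) 100000000000 U - sm (75 * P.b1) 1000000 C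

/-- Monotonicity at the left end. -/
def monG0 (S kd kx : α) : α := sm 5092958 1000000 (S * kd) + sm 15 2 kx

/-- Monotonicity at `p`. -/
def monG1 (m0 p2 kt : α) : α := m0 + sm 105 2 (p2 * kt)

/-- The lower bound for the volume excess. -/
def xG (s4 i4 : α) : α := sm 15 8 (s4 + i4)

/-- The part of the lower bound without the volume. -/
def yG (z kd kt g3 g5 : α) : α := z + (sm 5092958 3000000 (kd * g3) + sm 105 8 (kt * g5))

/-- The largest volume excess. -/
def xTopG : α := k ((P.xb : ℤ) - 100) 100

/-- The bound used near the corner. -/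
def smallG (L : α) : α :=
  k (5092958 * (30000000 - (P.b6 : ℤ) * (7 * (P.xb : ℤ) - 300))) 30000000000000
    - sm (75 * (300 * (P.a : ℤ) + P.b1 * (7 * (P.xb : ℤ) - 300))
        + 1575 * (100 * (P.b0 : ℤ) + P.b1 * ((P.xb : ℤ) - 100))
        + 450 * ((-P.c4).toNat : ℤ) * ((P.xb : ℤ) - 100)) 300000000 L

end Generic

/-- A natural number, evaluated before it is used. -/
def forceN {β : Type} (n : ℕ) (f : ℕ → β) : β :=
  Nat.casesOn n (f 0) fun j => f (Nat.succ j)

/-- An integer, evaluated before it is used. -/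
def forceI {β : Type} (z : ℤ) (f : ℤ → β) : β :=
  Int.casesOn z (fun n => forceN n fun j => f (Int.ofNat j))
    (fun n => forceN n fun j => f (Int.negSucc j))

/-- Affine forms whose error is a natural number, for fast evaluation by the kernel. -/
structure SF where
  c : ℤ
  x : ℤ
  y : ℤ
  e : ℕ

/-- The affine form. -/
def SF.af (a : SF) : AF := ⟨a.c, a.x, a.y, a.e⟩

/-- An affine form, evaluated before it is used. -/
def strict {β : Type} (a : SF) (f : SF → β) : β :=
  forceI a.c fun c => forceI a.x fun x => forceI a.y fun y => forceN a.e fun e => f ⟨c, x, y, e⟩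

/-- The sum of affine forms. -/
def SF.add (a b : SF) : SF :=
  ⟨Int.add a.c b.c, Int.add a.x b.x, Int.add a.y b.y, Nat.add a.e b.e⟩

/-- The difference of affine forms. -/
def SF.sub (a b : SF) : SF :=
  ⟨Int.sub a.c b.c, Int.sub a.x b.x, Int.sub a.y b.y, Nat.add a.e b.e⟩

/-- The total linear deviation. -/
def SF.dev (a : SF) : ℕ := Nat.add a.x.natAbs a.y.natAbs

/-- The product of affine forms. -/
def SF.mul (a b : SF) : SF :=
  ⟨Int.ediv (Int.mul a.c b.c) 1073741824,
    Int.ediv (Int.add (Int.mul a.c b.x) (Int.mul a.x b.c)) 1073741824,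
    Int.ediv (Int.add (Int.mul a.c b.y) (Int.mul a.y b.c)) 1073741824,
    Nat.add (Nat.div (Nat.add (Nat.mul (Nat.add a.dev a.e) (Nat.add b.dev b.e))
      (Nat.add (Nat.mul a.c.natAbs b.e) (Nat.mul b.c.natAbs a.e))) 1073741824) 4⟩

instance : Add SF := ⟨SF.add⟩
instance : Sub SF := ⟨SF.sub⟩
instance : Mul SF := ⟨SF.mul⟩

/-- The least value. -/
def SF.low (a : SF) : ℤ := Int.sub a.c (Int.ofNat (Nat.add a.dev a.e))

/-- The largest value. -/
def SF.high (a : SF) : ℤ := Int.add a.c (Int.ofNat (Nat.add a.dev a.e))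

/-- Constants as affine forms. -/
def kA (n : ℤ) (d : ℕ) : SF := ⟨Int.ediv (Int.mul n 1073741824) (Int.ofNat d), 0, 0, 1⟩

/-- An affine form times a constant. -/
def sA (n : ℤ) (d : ℕ) (a : SF) : SF :=
  ⟨Int.ediv (Int.mul n a.c) (Int.ofNat d), Int.ediv (Int.mul n a.x) (Int.ofNat d),
    Int.ediv (Int.mul n a.y) (Int.ofNat d), Nat.add (Nat.div (Nat.mul n.natAbs a.e) d) 4⟩

/-- Constants as real numbers. -/
noncomputable def kR (n : ℤ) (d : ℕ) : ℝ := (n : ℝ) / (d : ℝ)

/-- A real number times a constant. -/
noncomputable def sR (n : ℤ) (d : ℕ) (v : ℝ) : ℝ := (n : ℝ) / (d : ℝ) * v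

/-- What a leaf claims. -/
inductive Act where
  | out
  | small
  | volume (c : Ch)
  | mono (c : Ch)
  | split (c : Ch)

/-- Bisection tree; a leaf stores an enclosing line for `√(1-S²)` and what it claims. -/
inductive Tree where
  | leaf (qc qx qe : ℤ) (act : Act)
  | splitS (l r : Tree)
  | splitM (l r : Tree)

/-- The part of the monotonicity test that depends on the range. -/
def monoOK (P : Par) (S p2 U C W g3 g5 x : SF) : Bool :=
  strict (kdG sA P C W) fun kd => strict (kxG sA P U C W) fun kx =>
  strict (ktG sA P U C W) fun kt => strict (monG0 sA S kd kx) fun m0 =>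
  decide (0 ≤ m0.low) && decide (0 ≤ (monG1 sA m0 p2 kt).low)
    && decide (0 ≤ (yG sA (zeroG sA P U C W) kd kt g3 g5 + kx * x).low)

/-- The part of the split test that depends on the range. -/
def splitOK (P : Par) (U C W g3 g5 : SF) : Bool :=
  strict (ktG sA P U C W) fun kt =>
  strict (yG sA (zeroG sA P U C W) (kdG sA P C W) kt g3 g5) fun y =>
  decide (0 ≤ kt.low) && decide (0 ≤ y.low)
    && decide (0 ≤ (y + kxG sA P U C W * xTopG kA P).low)

/-- The gains with the cube and the weighted fourth power, given `p`, `p²` and `L - 1`. -/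
def gains (S q m p p2 d : SF) (c : Ch) (f : SF → SF → Bool) : Bool :=
  strict (s3G sA S q m + i3G kA sA c p p2 d) fun g3 =>
  strict (s5G sA S q m + i5G kA sA c p p2 d) fun g5 => f g3 g5

/-- The moments of the tangent. -/
def moments (S q m : SF) (f : SF → SF → SF → Bool) : Bool :=
  strict (uG sA S q m) fun U => strict (cG sA S q m) fun C =>
  strict (wG sA S q m) fun W => f U C W

/-- `p`, `p²` and `L - 1`. -/
def ends (S q m : SF) (f : SF → SF → SF → Bool) : Bool :=
  strict (pG S q m) fun p => strict (p * p) fun p2 => strict (lG S q m - kA 1 1) fun d => f p p2 d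

/-- The monotonicity test. -/
def monoAt (P : Par) (S q m : SF) (c : Ch) (p p2 d : SF) : Bool :=
  moments S q m fun U C W => gains S q m p p2 d c fun g3 g5 =>
    strict (xG sA (s4G sA S q m) (i4G kA sA c p p2 d)) (monoOK P S p2 U C W g3 g5)

/-- The split test. -/
def splitAt (P : Par) (S q m : SF) (c : Ch) (p p2 d : SF) : Bool :=
  moments S q m fun U C W => gains S q m p p2 d c (splitOK P U C W)

/-- The test of a claim at a box. -/
def actOK (P : Par) (S q m : SF) : Act → Bool
  | .out => decide ((pG S q m).high < 0)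
  | .small => decide (0 ≤ (smallG kA sA P (lG S q m)).low)
  | .volume c => ends S q m fun p p2 d =>
    decide (((P.xb : ℤ) - 100) * N / 100 + 2 ≤
      (xG sA (s4G sA S q m) (i4G kA sA c p p2 d)).low)
  | .mono c => ends S q m (monoAt P S q m c)
  | .split c => ends S q m (splitAt P S q m c)

/-- The leaf test. -/
def leafOK (P : Par) (A B C D qc qx qe : ℤ) (act : Act) : Bool :=
  let sc := (A + B) / 2
  let sx := (B - A) / 2
  let u := qc + qe
  decide ((A + B) % 2 = 0 ∧ (B - A) % 2 = 0 ∧ (C + D) % 2 = 0 ∧ (D - C) % 2 = 0)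
    && decide ((qc - qe + qx) * (qc - qe + qx) + B * B ≤ N * N)
    && decide ((qc - qe - qx) * (qc - qe - qx) + A * A ≤ N * N)
    && decide (|qx| ≤ u ∧ 0 ≤ u * u + sc * sc - N * N ∧
      (2 * (u * qx + sc * sx)) * (2 * (u * qx + sc * sx))
        ≤ 4 * (qx * qx + sx * sx) * (u * u + sc * sc - N * N))
    && (strict ⟨sc, sx, 0, 0⟩ fun S => strict ⟨(C + D) / 2, 0, (D - C) / 2, 0⟩ fun m =>
        actOK P S ⟨qc, qx, 0, qe.toNat⟩ m act) && decide (0 ≤ qe)

/-- The tree test. -/
def Tree.check (P : Par) : Tree → ℤ → ℤ → ℤ → ℤ → Bool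
  | .leaf qc qx qe act, A, B, C, D => leafOK P A B C D qc qx qe act
  | .splitS l r, A, B, C, D =>
    l.check P A ((A + B) / 2) C D && r.check P ((A + B) / 2) B C D
  | .splitM l r, A, B, C, D =>
    l.check P A B C ((C + D) / 2) && r.check P A B ((C + D) / 2) D

/-- A split in `S` of the tree test. -/
lemma Tree.check_splitS {P : Par} {l r : Tree} {A B C D M : ℤ} (hM : (A + B) / 2 = M)
    (hl : l.check P A M C D = true) (hr : r.check P M B C D = true) :
    (Tree.splitS l r).check P A B C D = true := by
  simp only [Tree.check, hM, hl, hr, Bool.and_self]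

/-- A split in `m` of the tree test. -/
lemma Tree.check_splitM {P : Par} {l r : Tree} {A B C D M : ℤ} (hM : (C + D) / 2 = M)
    (hl : l.check P A B C M = true) (hr : r.check P A B M D = true) :
    (Tree.splitM l r).check P A B C D = true := by
  simp only [Tree.check, hM, hl, hr, Bool.and_self]

end Vale.Agent.P237.Five
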