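import Vale.Agent.P237.Five.Parts
import Vale.Agent.P237.Profile.Segment

/-!
# Integrals over the tangent segment, in `ℝ⁵`
-/

namespace Vale.Agent.P237.Five

open Set MeasureTheory Profile
open scoped Real

lemma ii_poly7 (a b c0 c1 c2 c3 c4 c5 c6 c7 : ℝ) :
    ∫ z in a..b, (c0 + c1 * z + c2 * z ^ 2 + c3 * z ^ 3 + c4 * z ^ 4 + c5 * z ^ 5 + c6 * z ^ 6
        + c7 * z ^ 7)
      = c0 * (b - a) + c1 * ((b ^ 2 - a ^ 2) / 2) + c2 * ((b ^ 3 - a ^ 3) / 3)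
        + c3 * ((b ^ 4 - a ^ 4) / 4) + c4 * ((b ^ 5 - a ^ 5) / 5) + c5 * ((b ^ 6 - a ^ 6) / 6)
        + c6 * ((b ^ 7 - a ^ 7) / 7) + c7 * ((b ^ 8 - a ^ 8) / 8) := by
  have hd : ∀ z ∈ uIcc a b, HasDerivAt (fun z : ℝ => c0 * z + c1 * (z ^ 2 / 2) + c2 * (z ^ 3 / 3)
      + c3 * (z ^ 4 / 4) + c4 * (z ^ 5 / 5) + c5 * (z ^ 6 / 6) + c6 * (z ^ 7 / 7)
      + c7 * (z ^ 8 / 8))
      (c0 + c1 * z + c2 * z ^ 2 + c3 * z ^ 3 + c4 * z ^ 4 + c5 * z ^ 5 + c6 * z ^ 6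
        + c7 * z ^ 7) z := by
    intro z _
    refine ((((((((((hasDerivAt_id' z).const_mul c0).fun_add
      (((hasDerivAt_pow 2 z).div_const 2).const_mul c1)).fun_add
      (((hasDerivAt_pow 3 z).div_const 3).const_mul c2)).fun_add
      (((hasDerivAt_pow 4 z).div_const 4).const_mul c3)).fun_add
      (((hasDerivAt_pow 5 z).div_const 5).const_mul c4)).fun_add
      (((hasDerivAt_pow 6 z).div_const 6).const_mul c5)).fun_add
      (((hasDerivAt_pow 7 z).div_const 7).const_mul c6)).fun_add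
      (((hasDerivAt_pow 8 z).div_const 8).const_mul c7))).congr_deriv ?_
    push_cast
    ring
  rw [intervalIntegral.integral_eq_sub_of_hasDerivAt hd
    ((by fun_prop : Continuous _).intervalIntegrable a b)]
  ring

variable {g : ℝ → ℝ} {p q : ℝ}

/-- Integration over `[p,q]` in the variable `z = (q-t)/√(1-q²)`. -/
lemma ii_seg {S : ℝ} (hS : S ≠ 0) (f : ℝ → ℝ) (p q : ℝ) :
    ∫ t in p..q, f t = S * ∫ z in (0:ℝ)..((q - p) / S), f (q - S * z) := by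
  have h1 := ii_sub_left (fun w => f (q - w)) p q
  simp only [sub_sub_cancel] at h1
  have h2 := intervalIntegral.smul_integral_comp_mul_left (fun w => f (q - w)) S
    (a := 0) (b := (q - p) / S)
  rw [smul_eq_mul, mul_zero, mul_div_cancel₀ _ hS] at h2
  rw [h2, h1]

lemma tang_z (h : Seg g p q) (z : ℝ) :
    tang q (q - √(1 - q ^ 2) * z) = √(1 - q ^ 2) + q * z := by
  have hS : 0 < √(1 - q ^ 2) := sqrt_pos_of (by linarith [h.q_pos]) h.hq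
  rw [tang_sub h.q_pos.le h.hq]
  field_simp

lemma int_sq_dtang (h : Seg g p q) :
    ∫ t in p..q, tang q t ^ 2 * tang' q t
      = ((q - p) / √(1 - q ^ 2)) ^ 2 / √(1 - q ^ 2)
          * uG sR √(1 - q ^ 2) q ((q - p) / √(1 - q ^ 2)) := by
  set S := √(1 - q ^ 2) with hSd
  have hS : 0 < S := sqrt_pos_of (by linarith [h.q_pos]) h.hq
  rw [ii_seg hS.ne' (fun t => tang q t ^ 2 * tang' q t) p q]
  rw [intervalIntegral.integral_congr (g := fun z => 0 + 1 * z + 2 * q / S * z ^ 2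
    + q ^ 2 / S ^ 2 * z ^ 3 + 0 * z ^ 4 + 0 * z ^ 5 + 0 * z ^ 6 + 0 * z ^ 7) ?_, ii_poly7]
  · simp only [uG, kR, sR]
    push_cast
    field_simp
    ring
  · intro z _
    simp only
    rw [tang_z h, tang', ← hSd]
    field_simp
    ring

lemma int_cube_dtang (h : Seg g p q) :
    ∫ t in p..q, tang q t ^ 3 * tang' q t
      = ((q - p) / √(1 - q ^ 2)) ^ 2 / √(1 - q ^ 2)
          * cG sR √(1 - q ^ 2) q ((q - p) / √(1 - q ^ 2)) := by
  set S := √(1 - q ^ 2) with hSd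
  have hS : 0 < S := sqrt_pos_of (by linarith [h.q_pos]) h.hq
  rw [ii_seg hS.ne' (fun t => tang q t ^ 3 * tang' q t) p q]
  rw [intervalIntegral.integral_congr (g := fun z => 0 + S * z + 3 * q * z ^ 2
    + 3 * q ^ 2 / S * z ^ 3 + q ^ 3 / S ^ 2 * z ^ 4 + 0 * z ^ 5 + 0 * z ^ 6 + 0 * z ^ 7)
    ?_, ii_poly7]
  · simp only [cG, kR, sR]
    push_cast
    field_simp
    ring
  · intro z _
    simp only
    rw [tang_z h, tang', ← hSd]
    field_simp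
    ring

lemma int_wcube_dtang (h : Seg g p q) :
    ∫ t in p..q, t ^ 2 * (tang q t ^ 3 * tang' q t)
      = ((q - p) / √(1 - q ^ 2)) ^ 2 / √(1 - q ^ 2)
          * wG sR √(1 - q ^ 2) q ((q - p) / √(1 - q ^ 2)) := by
  set S := √(1 - q ^ 2) with hSd
  have hS : 0 < S := sqrt_pos_of (by linarith [h.q_pos]) h.hq
  rw [ii_seg hS.ne' (fun t => t ^ 2 * (tang q t ^ 3 * tang' q t)) p q]
  rw [intervalIntegral.integral_congr (g := fun z => 0 + q ^ 2 * S ^ 3 / S ^ 2 * z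
    + (3 * S ^ 2 * q ^ 3 - 2 * q * S ^ 4) / S ^ 2 * z ^ 2
    + (3 * S * q ^ 4 - 6 * q ^ 2 * S ^ 3 + S ^ 5) / S ^ 2 * z ^ 3
    + (q ^ 5 - 6 * S ^ 2 * q ^ 3 + 3 * q * S ^ 4) / S ^ 2 * z ^ 4
    + (3 * q ^ 2 * S ^ 3 - 2 * S * q ^ 4) / S ^ 2 * z ^ 5
    + S ^ 2 * q ^ 3 / S ^ 2 * z ^ 6 + 0 * z ^ 7) ?_, ii_poly7]
  · simp only [wG, kR, sR]
    push_cast
    field_simp
    ring
  · intro z _
    simp only
    rw [tang_z h, tang', ← hSd]
    field_simp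
    ring

lemma seg_sqrt_sq (h : Seg g p q) {z : ℝ} (hz : z ∈ Icc 0 ((q - p) / √(1 - q ^ 2))) :
    √(1 - (q - √(1 - q ^ 2) * z) ^ 2) ^ 2 = (√(1 - q ^ 2) + q * z) ^ 2 - z ^ 2 := by
  set S := √(1 - q ^ 2) with hSd
  have hS : 0 < S := sqrt_pos_of (by linarith [h.q_pos]) h.hq
  have hS2 : S ^ 2 = 1 - q ^ 2 := Real.sq_sqrt (by nlinarith [h.q_pos, h.hq])
  have e : 1 - (q - S * z) ^ 2 = (S + q * z) ^ 2 - z ^ 2 := by
    rw [show (S + q * z) ^ 2 = S ^ 2 + 2 * S * (q * z) + q ^ 2 * z ^ 2 by ring,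
      show (q - S * z) ^ 2 = q ^ 2 - 2 * S * (q * z) + S ^ 2 * z ^ 2 by ring, hS2]
    ring
  have hSz : S * z ≤ q - p := by
    calc S * z ≤ S * ((q - p) / S) := mul_le_mul_of_nonneg_left hz.2 hS.le
      _ = q - p := mul_div_cancel₀ _ hS.ne'
  have h1 : 0 ≤ q - S * z := by linarith [h.hp]
  have h2 : q - S * z ≤ 1 := by linarith [mul_nonneg hS.le hz.1, h.hq]
  rw [Real.sq_sqrt (by nlinarith), e]

lemma sqrt_pow_four {t : ℝ} (h0 : 0 ≤ t) (h1 : t ≤ 1) : √(1 - t ^ 2) ^ 4 = (1 - t ^ 2) ^ 2 := by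
  rw [show √(1 - t ^ 2) ^ 4 = (√(1 - t ^ 2) ^ 2) ^ 2 by ring, Real.sq_sqrt (by nlinarith)]

lemma seg_four (h : Seg g p q) :
    ∫ t in p..q, (tang q t ^ 4 - √(1 - t ^ 2) ^ 4)
      = s4G sR √(1 - q ^ 2) q ((q - p) / √(1 - q ^ 2)) := by
  set S := √(1 - q ^ 2) with hSd
  have hS : 0 < S := sqrt_pos_of (by linarith [h.q_pos]) h.hq
  have hS2 : S ^ 2 = 1 - q ^ 2 := Real.sq_sqrt (by nlinarith [h.q_pos, h.hq])
  have hm : 0 ≤ (q - p) / S := div_nonneg (by linarith [h.hpq]) hS.le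
  rw [ii_seg hS.ne' (fun t => tang q t ^ 4 - √(1 - t ^ 2) ^ 4) p q]
  rw [intervalIntegral.integral_congr (g := fun z => 0 + 0 * z + 2 * S ^ 2 * z ^ 2
    + 4 * S * q * z ^ 3 + (2 * q ^ 2 - 1) * z ^ 4 + 0 * z ^ 5 + 0 * z ^ 6 + 0 * z ^ 7)
    ?_, ii_poly7]
  · simp only [s4G, kR, sR]
    push_cast
    rw [show (2 * q ^ 2 - 1) = q * q - S * S by rw [← pow_two S, hS2]; ring]
    ring
  · intro z hz
    rw [uIcc_of_le hm] at hz
    simp only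
    rw [show √(1 - (q - S * z) ^ 2) ^ 4 = (√(1 - (q - S * z) ^ 2) ^ 2) ^ 2 by ring,
      hSd, seg_sqrt_sq h hz, tang_z h]
    ring

lemma seg_wfour (h : Seg g p q) :
    ∫ t in p..q, t ^ 2 * (tang q t ^ 4 - √(1 - t ^ 2) ^ 4)
      = s5G sR √(1 - q ^ 2) q ((q - p) / √(1 - q ^ 2)) := by
  set S := √(1 - q ^ 2) with hSd
  have hS : 0 < S := sqrt_pos_of (by linarith [h.q_pos]) h.hq
  have hS2 : S ^ 2 = 1 - q ^ 2 := Real.sq_sqrt (by nlinarith [h.q_pos, h.hq])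
  have hm : 0 ≤ (q - p) / S := div_nonneg (by linarith [h.hpq]) hS.le
  rw [ii_seg hS.ne' (fun t => t ^ 2 * (tang q t ^ 4 - √(1 - t ^ 2) ^ 4)) p q]
  rw [intervalIntegral.integral_congr (g := fun z => 0 + 0 * z + 2 * S ^ 2 * q ^ 2 * z ^ 2
    + (4 * S * q ^ 3 - 4 * S ^ 3 * q) * z ^ 3
    + ((2 * q ^ 2 - 1) * q ^ 2 - 8 * S ^ 2 * q ^ 2 + 2 * S ^ 4) * z ^ 4
    + (4 * S ^ 3 * q - 2 * q * S * (2 * q ^ 2 - 1)) * z ^ 5
    + (2 * q ^ 2 - 1) * S ^ 2 * z ^ 6 + 0 * z ^ 7) ?_, ii_poly7]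
  · simp only [s5G, kR, sR]
    push_cast
    rw [show (2 * q ^ 2 - 1) = q * q - S * S by rw [← pow_two S, hS2]; ring]
    ring
  · intro z hz
    rw [uIcc_of_le hm] at hz
    simp only
    rw [show √(1 - (q - S * z) ^ 2) ^ 4 = (√(1 - (q - S * z) ^ 2) ^ 2) ^ 2 by ring,
      hSd, seg_sqrt_sq h hz, tang_z h]
    ring

lemma seg_cube (h : Seg g p q) :
    s3G sR √(1 - q ^ 2) q ((q - p) / √(1 - q ^ 2))
      ≤ ∫ t in p..q, (tang q t ^ 3 - √(1 - t ^ 2) ^ 3) := by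
  set S := √(1 - q ^ 2) with hSd
  have hS : 0 < S := sqrt_pos_of (by linarith [h.q_pos]) h.hq
  have hm : 0 ≤ (q - p) / S := div_nonneg (by linarith [h.hpq]) hS.le
  have e : ∫ z in (0:ℝ)..((q - p) / S), (0 + 0 * z + 3/2 * S * z ^ 2 + 3/2 * q * z ^ 3
      + -(1 / (2 * S)) * z ^ 4 + 0 * z ^ 5 + 0 * z ^ 6 + 0 * z ^ 7)
        = s3G sR S q ((q - p) / S) / S := by
    rw [ii_poly7]
    simp only [s3G, kR, sR]
    push_cast
    field_simp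
    ring
  rw [ii_seg hS.ne' (fun t => tang q t ^ 3 - √(1 - t ^ 2) ^ 3) p q]
  have := mul_le_mul_of_nonneg_left (ii_mono hm
    ((by fun_prop : Continuous fun z : ℝ => 0 + 0 * z + 3/2 * S * z ^ 2 + 3/2 * q * z ^ 3
      + -(1 / (2 * S)) * z ^ 4 + 0 * z ^ 5 + 0 * z ^ 6 + 0 * z ^ 7).intervalIntegrable _ _)
    ((by unfold tang; fun_prop : Continuous fun z : ℝ =>
      tang q (q - S * z) ^ 3 - √(1 - (q - S * z) ^ 2) ^ 3).intervalIntegrable 0 ((q - p) / S))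
    fun z hz => ?_) hS.le
  · rw [e, mul_div_cancel₀ _ hS.ne'] at this
    exact this
  · have ha := seg_sqrt_sq h (Ioo_subset_Icc_self hz)
    rw [hSd, tang_z h, ← hSd]
    rw [← hSd] at ha
    set a := √(1 - (q - S * z) ^ 2)
    set T := S + q * z with hT
    have hT0 : S ≤ T := by nlinarith [h.q_pos, hz.1]
    have hTp : 0 < T := hS.trans_le hT0
    have h1 : a ^ 3 ≤ T ^ 3 - 3/2 * T * z ^ 2 + z ^ 4 / (2 * T) := by
      have e : T ^ 3 - 3/2 * T * z ^ 2 + z ^ 4 / (2 * T) - a ^ 3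
          = a ^ 2 * (T - a) ^ 2 / (2 * T) := by
        rw [show z ^ 4 = (z ^ 2) ^ 2 by ring, show z ^ 2 = T ^ 2 - a ^ 2 by linarith]
        field_simp
        ring
      have : 0 ≤ a ^ 2 * (T - a) ^ 2 / (2 * T) := by positivity
      linarith
    have h2 : z ^ 4 / (2 * T) ≤ z ^ 4 / (2 * S) :=
      div_le_div_of_nonneg_left (by positivity) (by positivity) (by linarith)
    have e2 : 0 + 0 * z + 3/2 * S * z ^ 2 + 3/2 * q * z ^ 3 + -(1 / (2 * S)) * z ^ 4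
        + 0 * z ^ 5 + 0 * z ^ 6 + 0 * z ^ 7 = 3/2 * T * z ^ 2 - z ^ 4 / (2 * S) := by
      rw [hT]; ring
    linarith

end Vale.Agent.P237.Five
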