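import Vale.Agent.P237.Five.Parts

/-!
# The stage inequality for `ℝ⁵`
-/

namespace Vale.Agent.P237.Five

open Stage (AF N Rep N_cast_pos rep_const rep_sqrt affine_param)

/-- The hypotheses of a stage; `d`, `x`, `t` are the three excesses. -/
structure Hyp (P : Par) (S q m d x t : ℝ) : Prop where
  hS : 0 < S
  hq : 0 ≤ q
  hsq : q ^ 2 + S ^ 2 = 1
  hm : 0 ≤ m
  hm5 : m ≤ 5/2
  hp : 0 ≤ pG S q m
  hW0 : 0 ≤ wG sR S q m
  hWC : wG sR S q m ≤ cG sR S q m
  hd : 0 ≤ d
  hx0 : 0 ≤ x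
  hx : x ≤ ((P.xb : ℝ) - 100) / 100
  ht : t ≤ (7 * (P.xb : ℝ) - 300) / 300
  ht0 : 0 ≤ t
  gain : ∀ (c : Ch) (z kd kx kt : ℝ), 0 ≤ kd → 0 ≤ monG0 sR S kd kx →
    0 ≤ monG1 sR (monG0 sR S kd kx) (pG S q m * pG S q m) kt →
    yG sR z kd kt
        (s3G sR S q m + i3G kR sR c (pG S q m) (pG S q m * pG S q m) (lG S q m - kR 1 1))
        (s5G sR S q m + i5G kR sR c (pG S q m) (pG S q m * pG S q m) (lG S q m - kR 1 1))
      + kx * xG sR (s4G sR S q m)
          (i4G kR sR c (pG S q m) (pG S q m * pG S q m) (lG S q m - kR 1 1))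
      ≤ z + (kd * d + kx * x + kt * t)

/-- The derivative at the excesses, times `S / m²`. -/
noncomputable def derR (P : Par) (S q m d x t : ℝ) : ℝ :=
  zeroG sR P (uG sR S q m) (cG sR S q m) (wG sR S q m)
    + (kdG sR P (cG sR S q m) (wG sR S q m) * d
      + kxG sR P (uG sR S q m) (cG sR S q m) (wG sR S q m) * x
      + ktG sR P (uG sR S q m) (cG sR S q m) (wG sR S q m) * t)

/-- Facts about the five sets of constants. -/
structure Par.Good (P : Par) : Prop where
  xb : 100 < P.xb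
  c3 : 7 * (P.b6 : ℝ) ≤ P.c3
  e : (P.b6 : ℝ) * (7 * (P.xb : ℝ) - 300) < 30000000

lemma IsPar.good {P : Par} (h : IsPar P) : P.Good := by
  rcases h with rfl | rfl | rfl | rfl | rfl <;>
    constructor <;> norm_num [parA, parB, parC, parD, parE]

variable {P : Par} {S q m d x t : ℝ}

lemma kd_nonneg (hP : P.Good) (h : Hyp P S q m d x t) :
    0 ≤ kdG sR P (cG sR S q m) (wG sR S q m) := by
  have h0 := h.hW0
  have h1 := mul_le_mul_of_nonneg_left h.hWC (show (0:ℝ) ≤ (P.b6 : ℝ) by positivity)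
  have h2 := mul_le_mul_of_nonneg_right hP.c3 (h0.trans h.hWC)
  simp only [kdG, kR, sR]
  push_cast
  linarith

lemma concl_split (hP : P.Good) (h : Hyp P S q m d x t) (c : Ch)
    (hkt : 0 ≤ ktG sR P (uG sR S q m) (cG sR S q m) (wG sR S q m))
    (hy : 0 ≤ yG sR (zeroG sR P (uG sR S q m) (cG sR S q m) (wG sR S q m))
      (kdG sR P (cG sR S q m) (wG sR S q m))
      (ktG sR P (uG sR S q m) (cG sR S q m) (wG sR S q m))
      (s3G sR S q m + i3G kR sR c (pG S q m) (pG S q m * pG S q m) (lG S q m - kR 1 1))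
      (s5G sR S q m + i5G kR sR c (pG S q m) (pG S q m * pG S q m) (lG S q m - kR 1 1)))
    (hz : 0 ≤ yG sR (zeroG sR P (uG sR S q m) (cG sR S q m) (wG sR S q m))
      (kdG sR P (cG sR S q m) (wG sR S q m))
      (ktG sR P (uG sR S q m) (cG sR S q m) (wG sR S q m))
      (s3G sR S q m + i3G kR sR c (pG S q m) (pG S q m * pG S q m) (lG S q m - kR 1 1))
      (s5G sR S q m + i5G kR sR c (pG S q m) (pG S q m * pG S q m) (lG S q m - kR 1 1))
      + kxG sR P (uG sR S q m) (cG sR S q m) (wG sR S q m) * xTopG kR P) :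
    0 ≤ derR P S q m d x t := by
  unfold derR
  set z := zeroG sR P (uG sR S q m) (cG sR S q m) (wG sR S q m) with hzd
  set kd := kdG sR P (cG sR S q m) (wG sR S q m) with hkdd
  set kx := kxG sR P (uG sR S q m) (cG sR S q m) (wG sR S q m) with hkxd
  set kt := ktG sR P (uG sR S q m) (cG sR S q m) (wG sR S q m) with hktd
  have hkd : 0 ≤ kd := kd_nonneg hP h
  have hS := h.hS
  have m0 : 0 ≤ monG0 sR S kd 0 := by
    simp only [monG0, kR, sR]; push_cast; positivity
  have m1 : 0 ≤ monG1 sR (monG0 sR S kd 0) (pG S q m * pG S q m) kt := by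
    have := mul_self_nonneg (pG S q m)
    simp only [monG1, kR, sR] at m0 ⊢; push_cast; positivity
  have g := h.gain c z kd 0 kt hkd m0 m1
  simp only [zero_mul, add_zero] at g
  set y := yG sR z kd kt
      (s3G sR S q m + i3G kR sR c (pG S q m) (pG S q m * pG S q m) (lG S q m - kR 1 1))
      (s5G sR S q m + i5G kR sR c (pG S q m) (pG S q m * pG S q m) (lG S q m - kR 1 1))
  have hM : (0:ℝ) < ((P.xb : ℝ) - 100) / 100 := by
    have : (100:ℝ) < P.xb := by exact_mod_cast hP.xb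
    linarith
  have hz' : 0 ≤ y + kx * (((P.xb : ℝ) - 100) / 100) := by
    have e : xTopG kR P = ((P.xb : ℝ) - 100) / 100 := by simp [xTopG, kR]
    rwa [e] at hz
  set M := ((P.xb : ℝ) - 100) / 100
  have key : 0 ≤ M * (y + kx * x) := by
    have e : M * (y + kx * x) = (M - x) * y + x * (y + kx * M) := by ring
    rw [e]
    exact add_nonneg (mul_nonneg (sub_nonneg.2 h.hx) hy) (mul_nonneg h.hx0 hz')
  have := nonneg_of_mul_nonneg_right key hM
  linarith

lemma concl_small (hP : P.Good) (h : Hyp P S q m d x t)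
    (hb : 0 ≤ smallG kR sR P (lG S q m)) : 0 ≤ derR P S q m d x t := by
  have hkd := mul_nonneg (kd_nonneg hP h) h.hd
  have hW := h.hW0
  have hC : 0 ≤ cG sR S q m := hW.trans h.hWC
  have hS := h.hS
  have hqm := mul_nonneg h.hq h.hm
  have hU : 0 ≤ uG sR S q m := by
    simp only [uG, kR, sR]; push_cast; positivity
  have hCU : cG sR S q m ≤ lG S q m * uG sR S q m := by
    have e : lG S q m * uG sR S q m - cG sR S q m
        = 1/6 * (S * S * (q * m)) + (1/6 * (S * (q * m * (q * m)))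
          + 1/20 * (q * m * (q * m) * (q * m))) := by
      simp only [lG, uG, cG, kR, sR]; push_cast; ring
    have : 0 ≤ 1/6 * (S * S * (q * m)) + (1/6 * (S * (q * m * (q * m)))
          + 1/20 * (q * m * (q * m) * (q * m))) := by positivity
    linarith
  set U := uG sR S q m with hUd
  set C := cG sR S q m with hCd
  set W := wG sR S q m with hWd
  set L := lG S q m with hLd
  set M := ((P.xb : ℝ) - 100) / 100 with hMd
  set T := (7 * (P.xb : ℝ) - 300) / 300 with hTd
  have hM : 0 ≤ M := by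
    have : (100:ℝ) < P.xb := by exact_mod_cast hP.xb
    rw [hMd]; linarith
  have hT : 0 ≤ T := h.ht0.trans h.ht
  have hn : -(P.c4 : ℝ) ≤ ((-P.c4).toNat : ℝ) := by
    have h1 : -P.c4 ≤ ((-P.c4).toNat : ℤ) := Int.self_le_toNat _
    have h2 : ((-P.c4 : ℤ) : ℝ) ≤ (((-P.c4).toNat : ℤ) : ℝ) := by exact_mod_cast h1
    push_cast at h2
    exact h2
  set c4m : ℝ := ((-P.c4).toNat : ℝ) with hc4m
  have hn0 : 0 ≤ c4m := Nat.cast_nonneg _
  have a1 : U * t * ((P.b6:ℝ) / 100000 * 5092958 / 1000000)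
      ≤ U * T * ((P.b6:ℝ) / 100000 * 5092958 / 1000000) :=
    mul_le_mul_of_nonneg_right (mul_le_mul_of_nonneg_left h.ht hU) (by positivity)
  have a2 : C * t * ((P.b1:ℝ) * 75 / 1000000) ≤ C * T * ((P.b1:ℝ) * 75 / 1000000) :=
    mul_le_mul_of_nonneg_right (mul_le_mul_of_nonneg_left h.ht hC) (by positivity)
  have a3 : W * x * ((P.b1:ℝ) * 525 / 1000000) ≤ C * M * ((P.b1:ℝ) * 525 / 1000000) :=
    mul_le_mul_of_nonneg_right (mul_le_mul h.hWC h.hx h.hx0 hC) (by positivity)
  have a4 : W * ((P.b0:ℝ) * 525 / 1000000) ≤ C * ((P.b0:ℝ) * 525 / 1000000) :=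
    mul_le_mul_of_nonneg_right h.hWC (by positivity)
  have a5 : 0 ≤ W * t * ((P.b5:ℝ) * 1050 / 1000000) :=
    mul_nonneg (mul_nonneg hW h.ht0) (by positivity)
  have a6 : 0 ≤ U * x * ((P.c3:ℝ) / 100000 * 5092958 / 1000000) :=
    mul_nonneg (mul_nonneg hU h.hx0) (by positivity)
  have a7 : 0 ≤ C * x * ((c4m + (P.c4:ℝ)) * 150 / 1000000) :=
    mul_nonneg (mul_nonneg hC h.hx0) (div_nonneg (mul_nonneg (by linarith) (by norm_num)) (by norm_num))
  have a8 : C * x * (c4m * 150 / 1000000) ≤ C * M * (c4m * 150 / 1000000) :=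
    mul_le_mul_of_nonneg_right (mul_le_mul_of_nonneg_left h.hx hC) (by positivity)
  set cc : ℝ := (75 * (300 * (P.a:ℝ) + P.b1 * (7 * (P.xb:ℝ) - 300))
      + 1575 * (100 * (P.b0:ℝ) + P.b1 * ((P.xb:ℝ) - 100)) + 450 * c4m * ((P.xb:ℝ) - 100))
      / 300000000 with hcc
  have hcc0 : 0 ≤ cc := by
    have e : cc = (75 * (300 * (P.a:ℝ) + P.b1 * (300 * T))
      + 1575 * (100 * (P.b0:ℝ) + P.b1 * (100 * M)) + 450 * c4m * (100 * M)) / 300000000 := by
      rw [hcc, hMd, hTd]; ring
    rw [e]; positivity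
  have b1 := mul_le_mul_of_nonneg_left hCU hcc0
  have b2 : 0 ≤ U * smallG kR sR P L := mul_nonneg hU hb
  simp only [hMd, hTd] at a1 a2 a3 a8
  simp only [smallG, kR, sR, hcc] at b1 b2
  simp only [derR, ← hUd, ← hCd, ← hWd, kxG, ktG, zeroG, kR, sR]
  push_cast at b1 b2 ⊢
  rw [← hc4m] at b2
  linarith

/-- The representation relation for the kernel arithmetic. -/
def RS (a : SF) (X Y v : ℝ) : Prop := Rep a.af X Y v

lemma forceN_eq {β : Type} (n : ℕ) (f : ℕ → β) : forceN n f = f n := by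
  cases n <;> rfl

lemma forceI_eq {β : Type} (z : ℤ) (f : ℤ → β) : forceI z f = f z := by
  cases z <;> simp [forceI, forceN_eq]

lemma strict_eq {β : Type} (a : SF) (f : SF → β) : strict a f = f a := by
  simp only [strict, forceI_eq, forceN_eq]

lemma nat_div_eq (a b : ℕ) : Nat.div a b = a / b := rfl

lemma af_mul (a b : SF) : (a * b).af = a.af * b.af := by
  show (SF.mul a b).af = AF.mul a.af b.af
  refine congr (congr (congr (congrArg AF.mk ?_) ?_) ?_) ?_
  · rfl
  · rfl
  · rfl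
  · show (((SF.mul a b).e : ℕ) : ℤ) = _
    simp only [SF.mul, SF.af, SF.dev, AF.dev, N, Nat.add_eq, Nat.mul_eq, nat_div_eq]
    push_cast
    ring_nf

variable {X Y u v : ℝ} {a b : SF}

lemma RS.add (ha : RS a X Y u) (hb : RS b X Y v) : RS (a + b) X Y (u + v) := by
  have h : (a + b).af = a.af + b.af := by
    rfl
  unfold RS
  rw [h]
  exact Rep.add ha hb

lemma RS.sub (ha : RS a X Y u) (hb : RS b X Y v) : RS (a - b) X Y (u - v) := by
  have h : (a - b).af = a.af - b.af := by
    rfl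
  unfold RS
  rw [h]
  exact Rep.sub ha hb

lemma RS.mul (hX : |X| ≤ 1) (hY : |Y| ≤ 1) (ha : RS a X Y u) (hb : RS b X Y v) :
    RS (a * b) X Y (u * v) := by
  unfold RS
  rw [af_mul]
  exact Rep.mul hX hY ha hb

lemma rs_const (n : ℤ) (k : ℕ) : RS (kA n k) X Y (kR n k) := by
  rcases Nat.eq_zero_or_pos k with rfl | hk
  · show Stage.Rep ⟨(n * 1073741824) / (0 : ℤ), 0, 0, 1⟩ X Y (kR n 0)
    simp [kR, Stage.Rep]
  · have e : (kA n k).af = AF.const n k := rfl
    unfold RS
    rw [e]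
    simpa [kR] using rep_const (X := X) (Y := Y) n (k:ℤ) (by exact_mod_cast hk)

lemma RS.smul (hX : |X| ≤ 1) (hY : |Y| ≤ 1) (n : ℤ) (k : ℕ) (ha : RS a X Y u) :
    RS (sA n k a) X Y (sR n k u) := by
  rcases Nat.eq_zero_or_pos k with rfl | hk
  · show Stage.Rep ⟨(n * a.c) / (0 : ℤ), (n * a.x) / (0 : ℤ), (n * a.y) / (0 : ℤ),
      ((n.natAbs * a.e / 0 + 4 : ℕ) : ℤ)⟩ X Y (sR n 0 u)
    simp [sR, Stage.Rep]
  have hk' : (0:ℤ) < k := by exact_mod_cast hk
  have hkR : (0:ℝ) < k := by exact_mod_cast hk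
  unfold RS Stage.Rep SF.af at ha
  dsimp only at ha
  set r : ℝ := u * N - (a.c + a.x * X + a.y * Y) with hr
  have hc := Stage.ediv_cast (n * a.c) k hk'
  have hx := Stage.ediv_cast (n * a.x) k hk'
  have hy := Stage.ediv_cast (n * a.y) k hk'
  have he := Stage.ediv_cast (|n| * a.e) k hk'
  push_cast at hc hx hy he ha
  have hR : |(n:ℝ) / k * r| ≤ |(n:ℝ)| * a.e / k := by
    rw [abs_mul, abs_div, abs_of_pos hkR, div_mul_eq_mul_div]
    exact div_le_div_of_nonneg_right (mul_le_mul_of_nonneg_left ha (abs_nonneg _)) hkR.le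
  have key := Stage.combine hX hY hc hx hy he hR
  show Stage.Rep ⟨(n * a.c) / (k : ℤ), (n * a.x) / (k : ℤ), (n * a.y) / (k : ℤ),
      ((n.natAbs * a.e / k + 4 : ℕ) : ℤ)⟩ X Y (sR n k u)
  unfold Stage.Rep
  refine le_of_eq_of_le ?_ (key.trans (le_of_eq ?_))
  · congr 1
    have e : u * N = (a.c:ℝ) + a.x * X + a.y * Y + r := by rw [hr]; ring
    simp only [sR]
    rw [mul_assoc, e]
    field_simp
  · push_cast
    rfl

lemma RS.of_low (hX : |X| ≤ 1) (hY : |Y| ≤ 1) (ha : RS a X Y u) {k : ℤ} (h : k ≤ a.low) :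
    (k:ℝ) / N ≤ u := by
  refine Stage.Rep.of_lo hX hY ha (h.trans (le_of_eq ?_))
  show a.c - ((a.x.natAbs + a.y.natAbs + a.e : ℕ) : ℤ) = a.c - (|a.x| + |a.y|) - a.e
  push_cast
  ring

lemma RS.of_high (hX : |X| ≤ 1) (hY : |Y| ≤ 1) (ha : RS a X Y u) (h : a.high < 0) : u < 0 := by
  refine Stage.Rep.of_hi hX hY ha (lt_of_eq_of_lt ?_ h)
  show a.c + (|a.x| + |a.y|) + a.e = a.c + ((a.x.natAbs + a.y.natAbs + a.e : ℕ) : ℤ)
  push_cast
  ring

lemma RS.nonneg (hX : |X| ≤ 1) (hY : |Y| ≤ 1) (ha : RS a X Y u) (h : 0 ≤ a.low) : 0 ≤ u := by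
  simpa using ha.of_low hX hY h

section Reps

variable {S' q' m' : SF} (hX : |X| ≤ 1) (hY : |Y| ≤ 1) (rS : RS S' X Y S) (rq : RS q' X Y q)
  (rm : RS m' X Y m)
include hX hY rS rq rm

lemma rs_p : RS (pG S' q' m') X Y (pG S q m) := rq.sub (rm.mul hX hY rS)

lemma rs_l : RS (lG S' q' m') X Y (lG S q m) := rS.add (rq.mul hX hY rm)

lemma rs_u : RS (uG sA S' q' m') X Y (uG sR S q m) := by
  unfold uG
  repeat' first
    | (with_reducible assumption) | (with_reducible exact rs_const _ _)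
    | (with_reducible apply RS.add) | (with_reducible apply RS.sub)
    | (with_reducible apply RS.mul hX hY) | (with_reducible apply RS.smul hX hY)

lemma rs_c : RS (cG sA S' q' m') X Y (cG sR S q m) := by
  unfold cG
  repeat' first
    | (with_reducible assumption) | (with_reducible exact rs_const _ _)
    | (with_reducible apply RS.add) | (with_reducible apply RS.sub)
    | (with_reducible apply RS.mul hX hY) | (with_reducible apply RS.smul hX hY)

lemma rs_w : RS (wG sA S' q' m') X Y (wG sR S q m) := by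
  unfold wG
  repeat' first
    | (with_reducible assumption) | (with_reducible exact rs_const _ _)
    | (with_reducible apply RS.add) | (with_reducible apply RS.sub)
    | (with_reducible apply RS.mul hX hY) | (with_reducible apply RS.smul hX hY)

lemma rs_s4 : RS (s4G sA S' q' m') X Y (s4G sR S q m) := by
  unfold s4G
  repeat' first
    | (with_reducible assumption) | (with_reducible exact rs_const _ _)
    | (with_reducible apply RS.add) | (with_reducible apply RS.sub)
    | (with_reducible apply RS.mul hX hY) | (with_reducible apply RS.smul hX hY)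

lemma rs_s5 : RS (s5G sA S' q' m') X Y (s5G sR S q m) := by
  unfold s5G
  repeat' first
    | (with_reducible assumption) | (with_reducible exact rs_const _ _)
    | (with_reducible apply RS.add) | (with_reducible apply RS.sub)
    | (with_reducible apply RS.mul hX hY) | (with_reducible apply RS.smul hX hY)

lemma rs_s3 : RS (s3G sA S' q' m') X Y (s3G sR S q m) := by
  unfold s3G
  repeat' first
    | (with_reducible assumption) | (with_reducible exact rs_const _ _)
    | (with_reducible apply RS.add) | (with_reducible apply RS.sub)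
    | (with_reducible apply RS.mul hX hY) | (with_reducible apply RS.smul hX hY)

end Reps

lemma rs_i4 (hX : |X| ≤ 1) (hY : |Y| ≤ 1) (c : Ch) {p' r' e' : SF} {p r e : ℝ}
    (hp : RS p' X Y p) (hr : RS r' X Y r) (he : RS e' X Y e) :
    RS (i4G kA sA c p' r' e') X Y (i4G kR sR c p r e) := by
  cases c <;> simp only [i4G] <;> repeat' first
    | (with_reducible assumption) | (with_reducible exact rs_const _ _)
    | (with_reducible apply RS.add) | (with_reducible apply RS.sub)
    | (with_reducible apply RS.mul hX hY) | (with_reducible apply RS.smul hX hY)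

lemma rs_i5 (hX : |X| ≤ 1) (hY : |Y| ≤ 1) (c : Ch) {p' r' e' : SF} {p r e : ℝ}
    (hp : RS p' X Y p) (hr : RS r' X Y r) (he : RS e' X Y e) :
    RS (i5G kA sA c p' r' e') X Y (i5G kR sR c p r e) := by
  cases c <;> simp only [i5G] <;> repeat' first
    | (with_reducible assumption) | (with_reducible exact rs_const _ _)
    | (with_reducible apply RS.add) | (with_reducible apply RS.sub)
    | (with_reducible apply RS.mul hX hY) | (with_reducible apply RS.smul hX hY)

lemma rs_i3 (hX : |X| ≤ 1) (hY : |Y| ≤ 1) (c : Ch) {p' r' e' : SF} {p r e : ℝ}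
    (hp : RS p' X Y p) (hr : RS r' X Y r) (he : RS e' X Y e) :
    RS (i3G kA sA c p' r' e') X Y (i3G kR sR c p r e) := by
  cases c <;> simp only [i3G] <;> repeat' first
    | (with_reducible assumption) | (with_reducible exact rs_const _ _)
    | (with_reducible apply RS.add) | (with_reducible apply RS.sub)
    | (with_reducible apply RS.mul hX hY) | (with_reducible apply RS.smul hX hY)

lemma act_sound (hX : |X| ≤ 1) (hY : |Y| ≤ 1) (hP : P.Good) {S' q' m' : SF}
    (rS : RS S' X Y S) (rq : RS q' X Y q) (rm : RS m' X Y m) (act : Act)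
    (hok : actOK P S' q' m' act = true) (h : Hyp P S q m d x t) : 0 ≤ derR P S q m d x t := by
  have k := fun n e => rs_const (X := X) (Y := Y) n e
  have rp := rs_p hX hY rS rq rm
  have rL := rs_l hX hY rS rq rm
  have re := rL.sub (k 1 1)
  have rp2 := rp.mul hX hY rp
  have rU := rs_u hX hY rS rq rm
  have rC := rs_c hX hY rS rq rm
  have rW := rs_w hX hY rS rq rm
  have r3 := fun c => (rs_s3 hX hY rS rq rm).add (rs_i3 hX hY c rp rp2 re)
  have r5 := fun c => (rs_s5 hX hY rS rq rm).add (rs_i5 hX hY c rp rp2 re)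
  have rz : RS (zeroG sA P _ _ _) X Y (zeroG sR P _ _ _) :=
    ((rU.smul hX hY _ _).sub (rC.smul hX hY _ _)).sub (rW.smul hX hY _ _)
  have rkd : RS (kdG sA P _ _) X Y (kdG sR P _ _) :=
    (rC.smul hX hY _ _).sub (rW.smul hX hY _ _)
  have rkx : RS (kxG sA P _ _ _) X Y (kxG sR P _ _ _) :=
    ((rU.smul hX hY _ _).add (rC.smul hX hY _ _)).sub (rW.smul hX hY _ _)
  have rkt : RS (ktG sA P _ _ _) X Y (ktG sR P _ _ _) :=
    ((rW.smul hX hY _ _).sub (rU.smul hX hY _ _)).sub (rC.smul hX hY _ _)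
  have rX := fun c => ((rs_s4 hX hY rS rq rm).add (rs_i4 hX hY c rp rp2 re)).smul hX hY 15 8
  have ry := fun c => rz.add (((rkd.mul hX hY (r3 c)).smul hX hY 5092958 3000000).add
    ((rkt.mul hX hY (r5 c)).smul hX hY 105 8))
  cases act with
  | out =>
    simp only [actOK, decide_eq_true_eq] at hok
    linarith [rp.of_high hX hY hok, h.hp]
  | small =>
    simp only [actOK, decide_eq_true_eq] at hok
    exact concl_small hP h (RS.nonneg hX hY ((k _ _).sub (rL.smul hX hY _ _)) hok)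
  | volume c =>
    simp only [actOK, ends, strict_eq, decide_eq_true_eq] at hok
    have h1 := (rX c).of_low hX hY hok
    have g := h.gain c 0 0 1 0 le_rfl (by simp only [monG0, kR, sR]; norm_num)
      (by simp only [monG1, monG0, kR, sR]; norm_num)
    have hN := N_cast_pos
    have h2 := (Stage.ediv_cast (((P.xb : ℤ) - 100) * N) 100 (by norm_num)).2
    exfalso
    rw [div_le_iff₀ hN] at h1
    push_cast at h2
    rw [div_le_iff₀ (by norm_num : (0:ℝ) < 100)] at h2
    simp only [yG, xG, sR, one_mul, mul_zero, zero_mul, zero_add, add_zero] at g h1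
    have h3 := mul_le_mul_of_nonneg_right (g.trans h.hx) hN.le
    push_cast at h1 h2 h3
    linarith
  | mono c =>
    simp only [actOK, ends, monoAt, moments, gains, monoOK, strict_eq, Bool.and_eq_true,
      decide_eq_true_eq] at hok
    obtain ⟨⟨h0, h1⟩, h2⟩ := hok
    have r0 := ((rS.mul hX hY rkd).smul hX hY 5092958 1000000).add (rkx.smul hX hY 15 2)
    have g := h.gain c (zeroG sR P (uG sR S q m) (cG sR S q m) (wG sR S q m)) _ _ _
      (kd_nonneg hP h) (RS.nonneg hX hY r0 h0)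
      (RS.nonneg hX hY (r0.add ((rp2.mul hX hY rkt).smul hX hY 105 2)) h1)
    exact le_trans (RS.nonneg hX hY ((ry c).add (rkx.mul hX hY (rX c))) h2) g
  | split c =>
    simp only [actOK, ends, splitAt, moments, gains, splitOK, strict_eq, Bool.and_eq_true,
      decide_eq_true_eq] at hok
    obtain ⟨⟨h0, h1⟩, h2⟩ := hok
    exact concl_split hP h c (rkt.nonneg hX hY h0) (RS.nonneg hX hY (ry c) h1)
      (RS.nonneg hX hY ((ry c).add (rkx.mul hX hY (k _ _))) h2)

lemma leaf_sound {A B C D qc qx qe : ℤ} (hX : |X| ≤ 1) (hY : |Y| ≤ 1) (hP : P.Good)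
    (hS : S * N = (((A + B) / 2 : ℤ) : ℝ) + (((B - A) / 2 : ℤ) : ℝ) * X)
    (hm : m * N = (((C + D) / 2 : ℤ) : ℝ) + (((D - C) / 2 : ℤ) : ℝ) * Y) {act : Act}
    (hok : leafOK P A B C D qc qx qe act = true) (h : Hyp P S q m d x t) :
    0 ≤ derR P S q m d x t := by
  unfold leafOK at hok
  simp only [strict_eq, Bool.and_eq_true, decide_eq_true_eq] at hok
  obtain ⟨⟨⟨⟨⟨⟨hAB, hBA, -, -⟩, h1⟩, h2⟩, hu, hg, hd⟩, hact⟩, hqe⟩ := hok
  refine act_sound hX hY hP ?_ ?_ ?_ act hact h
  · unfold RS Stage.Rep SF.af; dsimp only; rw [hS]; simp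
  · have := rep_sqrt hX hAB hBA h1 h2 hu hg hd hS h.hq h.hsq
    unfold RS Stage.Rep SF.af at *
    dsimp only at *
    rw [Int.toNat_of_nonneg hqe]
    simpa using this
  · unfold RS Stage.Rep SF.af; dsimp only; rw [hm]; simp

lemma tree_sound (hP : P.Good) : ∀ (tr : Tree) (A B C D : ℤ) {S q m d x t : ℝ},
    tr.check P A B C D = true → (A:ℝ) ≤ S * N → S * N ≤ B → (C:ℝ) ≤ m * N → m * N ≤ D →
    Hyp P S q m d x t → 0 ≤ derR P S q m d x t := by
  intro tr
  induction tr with
  | leaf qc qx qe act =>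
    intro A B C D S q m d x t hc hA hB hC hD h
    have hpar : (A + B) % 2 = 0 ∧ (B - A) % 2 = 0 ∧ (C + D) % 2 = 0 ∧ (D - C) % 2 = 0 := by
      have := hc
      simp only [Tree.check, leafOK, Bool.and_eq_true, decide_eq_true_eq] at this
      exact this.1.1.1.1.1
    obtain ⟨p1, p2, p3, p4⟩ := hpar
    obtain ⟨X, hX, hSX⟩ : ∃ X, |X| ≤ 1 ∧
        S * N = (((A + B) / 2 : ℤ) : ℝ) + (((B - A) / 2 : ℤ) : ℝ) * X := affine_param p1 p2 hA hB
    obtain ⟨Y, hY, hmY⟩ : ∃ Y, |Y| ≤ 1 ∧
        m * N = (((C + D) / 2 : ℤ) : ℝ) + (((D - C) / 2 : ℤ) : ℝ) * Y := affine_param p3 p4 hC hD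
    exact leaf_sound hX hY hP hSX hmY hc h
  | splitS l r ihl ihr =>
    intro A B C D S q m d x t hc hA hB hC hD h
    simp only [Tree.check, Bool.and_eq_true] at hc
    rcases le_total (S * N) (((A + B) / 2 : ℤ) : ℝ) with hs | hs
    · exact ihl _ _ _ _ hc.1 hA hs hC hD h
    · exact ihr _ _ _ _ hc.2 hs hB hC hD h
  | splitM l r ihl ihr =>
    intro A B C D S q m d x t hc hA hB hC hD h
    simp only [Tree.check, Bool.and_eq_true] at hc
    rcases le_total (m * N) (((C + D) / 2 : ℤ) : ℝ) with hs | hs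
    · exact ihl _ _ _ _ hc.1 hA hB hC hs h
    · exact ihr _ _ _ _ hc.2 hA hB hs hD h

end Vale.Agent.P237.Five
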