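import Vale.Agent.P237.Five.Stage
import Vale.Agent.P237.Five.Cert.A
import Vale.Agent.P237.Five.Cert.B
import Vale.Agent.P237.Five.Cert.C
import Vale.Agent.P237.Five.Cert.D
import Vale.Agent.P237.Five.Cert.E

/-!
# The stage inequality for `ℝ⁵` from the certificates
-/

namespace Vale.Agent.P237.Five

open Stage (N N_cast_pos)

variable {P : Par} {S q m d x t : ℝ}

/-- **Stage inequality.** -/
theorem stage_ineq (hP : IsPar P) (h : Hyp P S q m d x t) : 0 ≤ derR P S q m d x t := by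
  have hG := hP.good
  have hS1 : S ≤ 1 := by nlinarith [h.hS, h.hsq, sq_nonneg q]
  have hN := N_cast_pos
  have hm0 : ((0:ℤ):ℝ) ≤ m * N := by push_cast; exact mul_nonneg h.hm hN.le
  have hS0 : ((0:ℤ):ℝ) ≤ S * N := by push_cast; exact mul_nonneg h.hS.le hN.le
  have hS2 : S * N ≤ ((1073741824 : ℤ) : ℝ) := by
    have := mul_le_of_le_one_left hN.le hS1
    norm_num [N] at this ⊢
    linarith
  have hm2 : m * N ≤ ((2684354560 : ℤ) : ℝ) := by
    have := h.hm5
    norm_num [N]
    linarith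
  rcases hP with rfl | rfl | rfl | rfl | rfl
  · exact tree_sound hG treeA 0 _ 0 _ treeA_check hS0 hS2 hm0 hm2 h
  · exact tree_sound hG treeB 0 _ 0 _ treeB_check hS0 hS2 hm0 hm2 h
  · exact tree_sound hG treeC 0 _ 0 _ treeC_check hS0 hS2 hm0 hm2 h
  · exact tree_sound hG treeD 0 _ 0 _ treeD_check hS0 hS2 hm0 hm2 h
  · exact tree_sound hG treeE 0 _ 0 _ treeE_check hS0 hS2 hm0 hm2 h

end Vale.Agent.P237.Five
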