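import Vale.Agent.P237.Five.StageCert
import Vale.Agent.P237.Five.Left
import Vale.Agent.P237.Gen.GN.Petty

/-!
# The derivative along the path is nonnegative, in `ℝ⁵`
-/

namespace Vale.Agent.P237.Five

open Set MeasureTheory Profile
open scoped Real

variable {g : ℝ → ℝ} {p q : ℝ}

lemma sqrt_three_int : (∫ t in (0:ℝ)..1, √(1 - t ^ 2) ^ 3) = 3 * π / 16 := by
  have h1 : (∫ t in (0:ℝ)..1, √(1 - t ^ 2) ^ 1) = π / 4 := by simpa using ii_sqrt
  have h := Gen.GN.gnS_step 1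
  norm_num [Gen.GN.gnS_one] at h
  rw [Gen.GN.gnS_eq_pw] at h
  simp only [Gen.Contact.pw, Gen.Contact.semi] at h
  linarith

lemma sqrt_four_int : (∫ t in (0:ℝ)..1, √(1 - t ^ 2) ^ 4) = 8 / 15 := by
  rw [ii_congr zero_le_one (h := fun t : ℝ => 1 + 0 * t + -2 * t ^ 2 + 0 * t ^ 3 + 1 * t ^ 4
    + 0 * t ^ 5 + 0 * t ^ 6 + 0 * t ^ 7) fun t ht => by
      rw [sqrt_pow_four ht.1.le ht.2.le]; ring, ii_poly7]
  norm_num

lemma sq_sqrt_four_int : (∫ t in (0:ℝ)..1, t ^ 2 * √(1 - t ^ 2) ^ 4) = 8 / 105 := by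
  rw [ii_congr zero_le_one (h := fun t : ℝ => 0 + 0 * t + 1 * t ^ 2 + 0 * t ^ 3 + -2 * t ^ 4
    + 0 * t ^ 5 + 1 * t ^ 6 + 0 * t ^ 7) fun t ht => by
      rw [sqrt_pow_four ht.1.le ht.2.le]; ring, ii_poly7]
  norm_num

lemma path_split (hg : Profile.Adm g) (h : Seg g p q) (k : ℕ) {w : ℝ → ℝ} (hw : Continuous w) :
    (∫ t, w t * path g q t ^ k ∂μI) - (∫ t in (0:ℝ)..1, w t * √(1 - t ^ 2) ^ k)
      = (∫ t in (0:ℝ)..p, w t * (g t ^ k - √(1 - t ^ 2) ^ k))
        + ∫ t in p..q, w t * (tang q t ^ k - √(1 - t ^ 2) ^ k) := by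
  have hp1 : p ≤ 1 := by linarith [h.hpq, h.hq]
  have hc : Continuous fun t : ℝ => w t * √(1 - t ^ 2) ^ k := by fun_prop
  obtain ⟨K, hK⟩ := isCompact_Icc.exists_bound_of_continuousOn (s := Icc (0:ℝ) 1) hw.continuousOn
  have hint : Integrable (fun t => w t * path g q t ^ k) μI := by
    refine Integrable.of_bound (hw.aestronglyMeasurable.mul ((path_aemeas hg h.hq).pow k))
      (|K| * g 0 ^ k) ?_
    filter_upwards [ae_mem] with t ht
    rw [norm_mul, norm_pow, Real.norm_eq_abs (path g q t), abs_of_nonneg (path_nonneg hg ht h.hq)]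
    exact mul_le_mul ((hK t (Ioo_subset_Icc_self ht)).trans (le_abs_self K))
      (pow_le_pow_left₀ (path_nonneg hg ht h.hq)
        ((path_le q t).trans (hg.le_zero (Ioo_subset_Icc_self ht))) k)
      (pow_nonneg (path_nonneg hg ht h.hq) k) (abs_nonneg _)
  have hI : ∀ a b, 0 ≤ a → a ≤ b → b ≤ 1 →
      IntervalIntegrable (fun t => w t * path g q t ^ k - w t * √(1 - t ^ 2) ^ k) volume a b := by
    intro a b ha hab hb
    refine IntervalIntegrable.sub ?_ (hc.intervalIntegrable a b)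
    rw [intervalIntegrable_iff_integrableOn_Ioo_of_le hab]
    exact IntegrableOn.mono_set hint (Ioo_subset_Ioo ha hb)
  have hP : IntervalIntegrable (fun t => w t * path g q t ^ k) volume 0 1 := by
    rw [intervalIntegrable_iff_integrableOn_Ioo_of_le zero_le_one]
    exact hint
  rw [muI_integral, ← intervalIntegral.integral_sub hP (hc.intervalIntegrable 0 1),
    ← intervalIntegral.integral_add_adjacent_intervals (hI 0 p le_rfl h.hp hp1)
      (hI p 1 h.hp hp1 le_rfl),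
    ← intervalIntegral.integral_add_adjacent_intervals (hI p q h.hp h.hpq.le h.hq.le)
      (hI q 1 h.q_pos.le h.hq.le le_rfl),
    ii_congr h.hp (h := fun t => w t * (g t ^ k - √(1 - t ^ 2) ^ k))
      (fun t ht => by rw [h.path_low ht]; ring),
    ii_congr h.hpq.le (h := fun t => w t * (tang q t ^ k - √(1 - t ^ 2) ^ k))
      (fun t ht => by rw [h.path_mid ht]; ring),
    ii_congr h.hq.le (h := fun _ => 0) (fun t ht => by rw [h.path_high hg ht]; ring)]
  simp

lemma gain_nonneg (hg : Profile.Adm g) (h : Seg g p q) (k : ℕ) {w : ℝ → ℝ} (hw : Continuous w)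
    (hw0 : ∀ t, 0 ≤ w t) :
    0 ≤ (∫ t in (0:ℝ)..p, w t * (g t ^ k - √(1 - t ^ 2) ^ k)) ∧
      0 ≤ ∫ t in p..q, w t * (tang q t ^ k - √(1 - t ^ 2) ^ k) := by
  constructor
  · refine intervalIntegral.integral_nonneg h.hp fun t ht => mul_nonneg (hw0 t) (sub_nonneg.2 ?_)
    exact pow_le_pow_left₀ (Real.sqrt_nonneg _)
      (hg.ge t ⟨ht.1, by linarith [ht.2, h.hpq, h.hq]⟩) k
  · refine intervalIntegral.integral_nonneg h.hpq.le fun t ht => mul_nonneg (hw0 t) (sub_nonneg.2 ?_)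
    exact pow_le_pow_left₀ (Real.sqrt_nonneg _) (sqrt_le_tang (by linarith [h.q_pos]) h.hq
      (by nlinarith [ht.1, ht.2, h.hq, h.hp, h.q_pos])) k

lemma volume_bound (hg : Profile.Adm g) (h : Seg g p q) :
    q ^ 5 * ((q - p) / √(1 - q ^ 2)) ^ 4 ≤ 5 * ∫ t in (0:ℝ)..1, g t ^ 4 := by
  have hq1 := h.hq
  have hq0 := h.q_pos
  set S := √(1 - q ^ 2) with hSd
  have hS : 0 < S := sqrt_pos_of (by linarith) hq1
  set m := (q - p) / S with hmd
  have hm : 0 ≤ m := div_nonneg (by linarith [h.hpq]) hS.le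
  have hmS : m * S = q - p := div_mul_cancel₀ _ hS.ne'
  have hpq := h.hpq.le
  have hp1 : p ≤ 1 := by linarith
  have hgI : ∀ a b, 0 ≤ a → a ≤ b → b ≤ 1 →
      IntervalIntegrable (fun t => g t ^ 4) volume a b := by
    intro a b ha hab hb
    refine AntitoneOn.intervalIntegrable ?_
    rw [uIcc_of_le hab]
    intro u hu v hv huv
    exact pow_le_pow_left₀ (hg.nonneg (Icc_subset_Icc ha hb hv))
      (hg.anti (Icc_subset_Icc ha hb hu) (Icc_subset_Icc ha hb hv) huv) 4
  have a1 : p * (q * m) ^ 4 ≤ ∫ t in (0:ℝ)..p, g t ^ 4 := by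
    have := ii_mono h.hp (intervalIntegrable_const (c := (q * m) ^ 4)) (hgI 0 p le_rfl h.hp hp1)
      fun t ht => pow_le_pow_left₀ (mul_nonneg hq0.le hm)
        ((show q * m ≤ tang q p by
          rw [show p = q - (q - p) by ring, tang_sub hq0.le hq1, ← hSd, hmd, mul_div_assoc]
          linarith).trans (h.ge_chord hg ht).1) 4
    simpa using this
  have a2 : S * (q ^ 4 * (m ^ 5 / 5)) ≤ ∫ t in p..q, g t ^ 4 := by
    have e : ∫ t in p..q, (q * ((q - t) / S)) ^ 4 = S * (q ^ 4 * (m ^ 5 / 5)) := by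
      rw [ii_seg hS.ne' (fun t => (q * ((q - t) / S)) ^ 4) p q,
        intervalIntegral.integral_congr (g := fun z => 0 + 0 * z + 0 * z ^ 2 + 0 * z ^ 3
          + q ^ 4 * z ^ 4 + 0 * z ^ 5 + 0 * z ^ 6 + 0 * z ^ 7) ?_, ii_poly7]
      · ring
      · intro z _
        simp only
        field_simp
        ring
    rw [← e]
    refine ii_mono hpq ((by fun_prop : Continuous _).intervalIntegrable p q)
      (hgI p q h.hp hpq hq1.le) fun t ht => ?_
    have h1 : 0 ≤ q * ((q - t) / S) :=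
      mul_nonneg hq0.le (div_nonneg (by linarith [ht.2]) hS.le)
    refine pow_le_pow_left₀ h1 ?_ 4
    have := (h.above t ht).le
    rw [show t = q - (q - t) by ring, tang_sub hq0.le hq1, ← hSd, mul_div_assoc] at this
    rw [sub_sub_cancel] at this
    linarith
  have a3 : 0 ≤ ∫ t in q..1, g t ^ 4 :=
    intervalIntegral.integral_nonneg hq1.le fun t ht =>
      pow_nonneg (hg.nonneg ⟨hq0.le.trans ht.1, ht.2⟩) 4
  have e : p * (q * m) ^ 4 + S * (q ^ 4 * (m ^ 5 / 5))
      = q ^ 4 * m ^ 4 * (p + m * S / 5) := by ring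
  have e2 : q ^ 4 * m ^ 4 * (q / 5) ≤ q ^ 4 * m ^ 4 * (p + m * S / 5) :=
    mul_le_mul_of_nonneg_left (by rw [hmS]; linarith [h.hp]) (by positivity)
  rw [← intervalIntegral.integral_add_adjacent_intervals (hgI 0 p le_rfl h.hp hp1)
      (hgI p 1 h.hp hp1 le_rfl),
    ← intervalIntegral.integral_add_adjacent_intervals (hgI p q h.hp hpq hq1.le)
      (hgI q 1 hq0.le hq1.le le_rfl)]
  linarith

lemma antitone_moment_le {W : ℝ → ℝ} (hW : AntitoneOn W (Icc (0:ℝ) 1)) :
    (∫ t in (0:ℝ)..1, t ^ 2 * W t) ≤ (∫ t in (0:ℝ)..1, W t) / 3 := by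
  have hI : IntervalIntegrable W volume 0 1 :=
    AntitoneOn.intervalIntegrable (by rwa [uIcc_of_le zero_le_one])
  have hI2 : IntervalIntegrable (fun t => t ^ 2 * W t) volume 0 1 :=
    hI.continuousOn_mul (by fun_prop)
  have hr : (0:ℝ) ≤ √(1/3) ∧ √(1/3) ≤ 1 :=
    ⟨Real.sqrt_nonneg _, Real.sqrt_le_one.2 (by norm_num)⟩
  have hr2 : √(1/3 : ℝ) ^ 2 = 1/3 := Real.sq_sqrt (by norm_num)
  set r := √(1/3 : ℝ)
  have hle : ∀ t ∈ Icc (0:ℝ) 1, t ^ 2 * W t ≤ 1/3 * W t + W r * (t ^ 2 - 1/3) := by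
    intro t ht
    rcases le_total t r with h | h
    · have h1 := hW ht hr h
      have h2 : t ^ 2 ≤ 1/3 := hr2 ▸ pow_le_pow_left₀ ht.1 h 2
      nlinarith
    · have h1 := hW hr ht h
      have h2 : 1/3 ≤ t ^ 2 := hr2 ▸ pow_le_pow_left₀ hr.1 h 2
      nlinarith
  have hc : IntervalIntegrable (fun t : ℝ => W r * (t ^ 2 - 1/3)) volume 0 1 :=
    (by fun_prop : Continuous fun t : ℝ => W r * (t ^ 2 - 1/3)).intervalIntegrable 0 1
  have h := intervalIntegral.integral_mono_on zero_le_one hI2 ((hI.const_mul _).add hc) hle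
  rw [intervalIntegral.integral_add (hI.const_mul _) hc,
    intervalIntegral.integral_const_mul, intervalIntegral.integral_const_mul,
    intervalIntegral.integral_sub ((by fun_prop : Continuous fun t : ℝ => t ^ 2).intervalIntegrable
      0 1) intervalIntegrable_const, integral_pow] at h
  norm_num at h
  linarith

lemma path_int_le (hg : Profile.Adm g) (hq : q < 1) {w : ℝ → ℝ} (hw : Continuous w)
    (hw0 : ∀ t, 0 ≤ w t) :
    (∫ t, w t * path g q t ^ 4 ∂μI) ≤ ∫ t in (0:ℝ)..1, w t * g t ^ 4 := by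
  rw [← muI_integral]
  refine integral_mono_of_nonneg ?_ ?_ ?_
  · filter_upwards [ae_mem] with t ht
    exact mul_nonneg (hw0 t) (pow_nonneg (path_nonneg hg ht hq) 4)
  · have hI : IntervalIntegrable (fun t => w t * g t ^ 4) volume 0 1 := by
      refine (AntitoneOn.intervalIntegrable ?_).continuousOn_mul hw.continuousOn
      rw [uIcc_of_le zero_le_one]
      exact fun u hu v hv huv => pow_le_pow_left₀ (hg.nonneg hv) (hg.anti hu hv huv) 4
    rw [intervalIntegrable_iff_integrableOn_Ioo_of_le zero_le_one] at hI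
    exact hI
  · filter_upwards [ae_mem] with t ht
    exact mul_le_mul_of_nonneg_left
      (pow_le_pow_left₀ (path_nonneg hg ht hq) (path_le q t) 4) (hw0 t)

lemma excess_eq (hg : Profile.Adm g) (h : Seg g p q) :
    dq g q = 16 / (3 * π) * ((∫ t in (0:ℝ)..p, (g t ^ 3 - √(1 - t ^ 2) ^ 3))
        + ∫ t in p..q, (tang q t ^ 3 - √(1 - t ^ 2) ^ 3)) ∧
      xq g q = 15 / 8 * ((∫ t in (0:ℝ)..p, (g t ^ 4 - √(1 - t ^ 2) ^ 4))
        + s4G sR √(1 - q ^ 2) q ((q - p) / √(1 - q ^ 2))) ∧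
      tq g q = 105 / 8 * ((∫ t in (0:ℝ)..p, t ^ 2 * (g t ^ 4 - √(1 - t ^ 2) ^ 4))
        + s5G sR √(1 - q ^ 2) q ((q - p) / √(1 - q ^ 2))) := by
  have one : Continuous fun _ : ℝ => (1:ℝ) := continuous_const
  have e3 := path_split hg h 3 one
  have e4 := path_split hg h 4 one
  have e5 := path_split hg h 4 (continuous_pow 2 : Continuous fun t : ℝ => t ^ 2)
  simp only [one_mul] at e3 e4
  rw [sqrt_three_int] at e3
  rw [sqrt_four_int, seg_four h] at e4
  rw [sq_sqrt_four_int, seg_wfour h] at e5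
  refine ⟨?_, ?_, ?_⟩
  · rw [dq, ← e3]; field_simp
  · rw [xq]; linarith
  · rw [tq]; linarith

lemma K_le : (5092958:ℝ) / 1000000 ≤ 16 / π := by
  rw [div_le_div_iff₀ (by norm_num) Real.pi_pos]
  have := Real.pi_lt_d20
  linarith

lemma excess_nonneg (hg : Profile.Adm g) (h : Seg g p q) :
    0 ≤ dq g q ∧ 0 ≤ xq g q ∧ 0 ≤ tq g q := by
  obtain ⟨ed, ex, et⟩ := excess_eq hg h
  have one : Continuous fun _ : ℝ => (1:ℝ) := continuous_const
  have g3 := gain_nonneg hg h 3 one fun _ => zero_le_one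
  have g4 := gain_nonneg hg h 4 one fun _ => zero_le_one
  have g5 := gain_nonneg hg h 4 (continuous_pow 2 : Continuous fun t : ℝ => t ^ 2) sq_nonneg
  simp only [one_mul] at g3 g4
  rw [ed, ex, et, ← seg_four h, ← seg_wfour h]
  exact ⟨mul_nonneg (by positivity) (add_nonneg g3.1 g3.2),
    mul_nonneg (by norm_num) (add_nonneg g4.1 g4.2),
    mul_nonneg (by norm_num) (add_nonneg g5.1 g5.2)⟩

lemma excess_le (hg : Profile.Adm g) (hq1 : q < 1) {R : ℝ}
    (hW : 15/8 * (∫ t in (0:ℝ)..1, g t ^ 4) ≤ R) : xq g q ≤ R - 1 ∧ tq g q ≤ 7/3 * R - 1 := by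
  have h0 := path_int_le hg hq1 (w := fun _ => 1) continuous_const fun _ => zero_le_one
  have h1 := path_int_le hg hq1 (w := fun t => t ^ 2) (continuous_pow 2) sq_nonneg
  have h2 := antitone_moment_le (W := fun t => g t ^ 4)
    fun u hu v hv huv => pow_le_pow_left₀ (hg.nonneg hv) (hg.anti hu hv huv) 4
  simp only [one_mul] at h0
  constructor
  · rw [xq]; linarith
  · rw [tq]; linarith

lemma slope_le (hg : Profile.Adm g) (h : Seg g p q)
    (hW : 15/8 * (∫ t in (0:ℝ)..1, g t ^ 4) ≤ 832 / 100) :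
    (q - p) / √(1 - q ^ 2) ≤ 5/2 := by
  have hq0 := h.q_pos
  have hv := volume_bound hg h
  set S := √(1 - q ^ 2) with hSd
  have hS : 0 < S := sqrt_pos_of (by linarith) h.hq
  have hS2 : S ^ 2 = 1 - q ^ 2 := Real.sq_sqrt (by nlinarith [h.hq])
  set m := (q - p) / S with hmd
  by_contra hc
  push Not at hc
  have h3 : (625:ℝ)/16 ≤ m ^ 4 := by
    calc (625:ℝ)/16 = (5/2) ^ 4 := by norm_num
      _ ≤ m ^ 4 := pow_le_pow_left₀ (by norm_num) hc.le 4
  have h4 : q ^ 5 * (625/16) ≤ q ^ 5 * m ^ 4 := mul_le_mul_of_nonneg_left h3 (by positivity)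
  have hq5 : q ^ 5 ≤ 57/100 := by linarith
  have hql : q ≤ 9/10 := by
    by_contra hc'
    push Not at hc'
    have := pow_le_pow_left₀ (by norm_num) hc'.le 5
    norm_num at this
    linarith
  have hSl : 43/100 ≤ S := by nlinarith
  have : m * S ≤ q := by rw [hmd, div_mul_cancel₀ _ hS.ne']; linarith [h.hp]
  nlinarith

lemma weight_bounds (h : Seg g p q) :
    0 ≤ wG sR √(1 - q ^ 2) q ((q - p) / √(1 - q ^ 2)) ∧
      wG sR √(1 - q ^ 2) q ((q - p) / √(1 - q ^ 2))
        ≤ cG sR √(1 - q ^ 2) q ((q - p) / √(1 - q ^ 2)) := by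
  have hS : 0 < √(1 - q ^ 2) := sqrt_pos_of (by linarith [h.q_pos]) h.hq
  have hm : 0 < (q - p) / √(1 - q ^ 2) := div_pos (by linarith [h.hpq]) hS
  have hpos : 0 < ((q - p) / √(1 - q ^ 2)) ^ 2 / √(1 - q ^ 2) := by positivity
  have hd : ∀ t ∈ Icc p q, 0 ≤ tang q t ^ 3 * tang' q t := fun t ht => by
    refine mul_nonneg (pow_nonneg ?_ 3) (div_nonneg (by linarith [ht.2]) (pow_nonneg hS.le _))
    exact div_nonneg (by nlinarith [ht.1, ht.2, h.hp, h.hq, h.q_pos]) hS.le
  constructor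
  · have : 0 ≤ ∫ t in p..q, t ^ 2 * (tang q t ^ 3 * tang' q t) :=
      intervalIntegral.integral_nonneg h.hpq.le fun t ht => mul_nonneg (sq_nonneg _) (hd t ht)
    rw [int_wcube_dtang h] at this
    exact nonneg_of_mul_nonneg_right this hpos
  · have : ∫ t in p..q, t ^ 2 * (tang q t ^ 3 * tang' q t)
        ≤ ∫ t in p..q, tang q t ^ 3 * tang' q t := by
      refine ii_mono h.hpq.le
        ((by unfold tang tang'; fun_prop : Continuous _).intervalIntegrable p q)
        ((by unfold tang tang'; fun_prop : Continuous _).intervalIntegrable p q) fun t ht => ?_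
      exact mul_le_of_le_one_left (hd t (Ioo_subset_Icc_self ht))
        (pow_le_one₀ (h.hp.trans ht.1.le) (by linarith [ht.2, h.hq]))
    rw [int_wcube_dtang h, int_cube_dtang h] at this
    exact le_of_mul_le_mul_left this hpos

lemma tang_left (h : Seg g p q) :
    pG √(1 - q ^ 2) q ((q - p) / √(1 - q ^ 2)) = p ∧
      lG √(1 - q ^ 2) q ((q - p) / √(1 - q ^ 2)) = tang q p := by
  have hS : 0 < √(1 - q ^ 2) := sqrt_pos_of (by linarith [h.q_pos]) h.hq
  constructor
  · rw [pG, div_mul_cancel₀ _ hS.ne']; ring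
  · rw [lG]
    conv_rhs => rw [show p = q - (q - p) by ring, tang_sub h.q_pos.le h.hq]
    ring

lemma gain_bound (hg : Profile.Adm g) (h : Seg g p q) {S m : ℝ} (hSd : S = √(1 - q ^ 2))
    (hmd : m = (q - p) / S) (c : Ch) (z kd kx kt : ℝ) (hkd : 0 ≤ kd)
    (hc0 : 0 ≤ monG0 sR S kd kx)
    (hc1 : 0 ≤ monG1 sR (monG0 sR S kd kx) (pG S q m * pG S q m) kt) :
    yG sR z kd kt
        (s3G sR S q m + i3G kR sR c (pG S q m) (pG S q m * pG S q m) (lG S q m - kR 1 1))
        (s5G sR S q m + i5G kR sR c (pG S q m) (pG S q m * pG S q m) (lG S q m - kR 1 1))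
      + kx * xG sR (s4G sR S q m)
          (i4G kR sR c (pG S q m) (pG S q m * pG S q m) (lG S q m - kR 1 1))
      ≤ z + (kd * dq g q + kx * xq g q + kt * tq g q) := by
  subst hSd hmd
  obtain ⟨ed, ex, et⟩ := excess_eq hg h
  obtain ⟨hpR, hlR⟩ := tang_left h
  have hS : 0 < √(1 - q ^ 2) := sqrt_pos_of (by linarith [h.q_pos]) h.hq
  rw [hpR] at hc1 ⊢
  rw [hlR, show kR 1 1 = 1 by simp [kR]]
  simp only [monG0, monG1, kR, sR] at hc0 hc1
  push_cast at hc0 hc1
  have hl := left_choice hg h (κ := 5092958/3000000 * kd) (γ0 := 15/8 * kx)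
    (γ2 := 105/8 * kt) (by positivity)
    (by
      have e : 3 * (5092958/3000000 * kd) + 4 * (15/8 * kx) / √(1 - q ^ 2)
          = (5092958/1000000 * (√(1 - q ^ 2) * kd) + 15/2 * kx) / √(1 - q ^ 2) := by
        field_simp; ring
      rw [e]; exact div_nonneg hc0 hS.le)
    (by
      have e : 3 * (5092958/3000000 * kd) + 4 * (15/8 * kx + 105/8 * kt * p ^ 2) / √(1 - q ^ 2)
          = (5092958/1000000 * (√(1 - q ^ 2) * kd) + 15/2 * kx + 105/2 * (p * p * kt))
            / √(1 - q ^ 2) := by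
        field_simp; ring
      rw [e]; exact div_nonneg hc1 hS.le) c
  rw [leftW] at hl
  have one : Continuous fun _ : ℝ => (1:ℝ) := continuous_const
  have g3 := gain_nonneg hg h 3 one fun _ => zero_le_one
  simp only [one_mul] at g3
  have h3 : 5092958/3000000 * kd * ((∫ t in (0:ℝ)..p, (g t ^ 3 - √(1 - t ^ 2) ^ 3))
      + ∫ t in p..q, (tang q t ^ 3 - √(1 - t ^ 2) ^ 3)) ≤ kd * dq g q := by
    rw [ed, show 16 / (3 * π) = 16 / π / 3 by ring]
    have := mul_le_mul_of_nonneg_right K_le (show 0 ≤ kd / 3 *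
      ((∫ t in (0:ℝ)..p, (g t ^ 3 - √(1 - t ^ 2) ^ 3))
        + ∫ t in p..q, (tang q t ^ 3 - √(1 - t ^ 2) ^ 3)) from
      mul_nonneg (by positivity) (add_nonneg g3.1 g3.2))
    linarith
  have h4 := mul_le_mul_of_nonneg_left (seg_cube h)
    (show (0:ℝ) ≤ 5092958/3000000 * kd by positivity)
  simp only [yG, xG, sR]
  push_cast
  rw [ex, et]
  linarith

/-- The functional does not decrease along the path. -/
theorem dpsi_nonneg {P : Par} (hP : IsPar P) (hg : Profile.Adm g) {q : ℝ} (_hq0 : 0 ≤ q)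
    (hq1 : q < 1) (hW : 15/8 * (∫ t in (0:ℝ)..1, g t ^ 4) ≤ (P.xb:ℝ) / 100) :
    0 ≤ dpsi P g q := by
  by_cases hE : ∃ t ∈ Ioo (0:ℝ) 1, t < q ∧ tang q t < g t
  swap
  · have h0 : dpath g q =ᵐ[μI] 0 := by
      filter_upwards [ae_mem] with t ht
      exact if_neg fun hc => hE ⟨t, ht, hc⟩
    have z : ∀ f : ℝ → ℝ → ℝ, (∀ t, f t 0 = 0) → ∫ t, f t (dpath g q t) ∂μI = 0 := fun f hf => by
      rw [integral_congr_ae (g := fun _ => (0:ℝ)) (by
        filter_upwards [h0] with t ht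
        simp only [Pi.zero_apply] at ht
        rw [ht, hf t])]
      simp
    rw [dpsi, z (fun t x => path g q t ^ 2 * x) (by simp),
      z (fun t x => path g q t ^ 3 * x) (by simp),
      z (fun t x => t ^ 2 * (path g q t ^ 3 * x)) (by simp)]
    simp
  obtain ⟨p, h⟩ := exists_seg hg hq1 hE
  have hq0 := h.q_pos
  obtain ⟨hd0, hx0, ht0⟩ := excess_nonneg hg h
  obtain ⟨hxle, htle⟩ := excess_le hg hq1 hW
  obtain ⟨hw0, hwc⟩ := weight_bounds h
  have hxb : (P.xb:ℝ) ≤ 832 := by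
    rcases hP with rfl | rfl | rfl | rfl | rfl <;> norm_num [parA, parB, parC, parD, parE]
  have hm5 := slope_le hg h (hW.trans (by linarith))
  obtain ⟨hpR, -⟩ := tang_left h
  set S := √(1 - q ^ 2) with hSd
  have hS : 0 < S := sqrt_pos_of (by linarith) hq1
  have hS2 : S ^ 2 = 1 - q ^ 2 := Real.sq_sqrt (by nlinarith)
  set m := (q - p) / S with hmd
  have hm : 0 < m := div_pos (by linarith [h.hpq]) hS
  set d := dq g q with hdd
  set x := xq g q with hxd
  set τ := tq g q with hτd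
  have hstage := stage_ineq hP (S := S) (q := q) (m := m) (d := d) (x := x) (t := τ)
    { hS := hS, hq := hq0.le, hsq := by rw [hS2]; ring, hm := hm.le, hm5 := hm5
      hp := by rw [hpR]; exact h.hp
      hW0 := hw0, hWC := hwc, hd := hd0, hx0 := hx0
      hx := by linarith
      ht := by linarith
      ht0 := ht0
      gain := gain_bound hg h hSd hmd }
  have hint : ∀ f : ℝ → ℝ → ℝ → ℝ, (∀ t a, f t a 0 = 0) →
      ∫ t, f t (path g q t) (dpath g q t) ∂μI = ∫ t in p..q, f t (tang q t) (tang' q t) := by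
    intro f hf
    rw [← indicator_integral h]
    refine integral_congr_ae ?_
    filter_upwards [h.dpath_eq] with t ht
    rw [ht]
    by_cases hmem : t ∈ Ioo p q
    · rw [indicator_of_mem hmem, indicator_of_mem hmem, h.path_mid hmem]
    · rw [indicator_of_notMem hmem, indicator_of_notMem hmem, hf]
  have hU : 0 ≤ uG sR S q m := by
    simp only [uG, kR, sR]; push_cast; positivity
  have hfd : 0 ≤ P.fd x τ := by
    have ht' : τ ≤ (7 * (P.xb:ℝ) - 300) / 300 := by linarith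
    have h1 := mul_le_mul_of_nonneg_left ht' (show (0:ℝ) ≤ P.b6 by positivity)
    have h2 : (0:ℝ) ≤ P.c3 * x := by positivity
    have := hP.good.e
    simp only [Par.fd]
    linarith
  rw [dpsi, hint (fun _ a b => a ^ 2 * b) (by simp), hint (fun _ a b => a ^ 3 * b) (by simp),
    hint (fun t a b => t ^ 2 * (a ^ 3 * b)) (by simp), int_sq_dtang h, int_cube_dtang h,
    int_wcube_dtang h, ← hSd, ← hmd, ← hdd, ← hxd, ← hτd]
  have hder : derR P S q m d x τ = P.fd x τ * (5092958/1000000 * uG sR S q m)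
      + P.fx d x τ * (15/2 * cG sR S q m) - P.ft d x τ * (105/2 * wG sR S q m) := by
    simp only [derR, zeroG, kdG, kxG, ktG, Par.fd, Par.fx, Par.ft]
    simp only [kR, sR]
    push_cast
    ring
  rw [hder] at hstage
  have h1 := mul_le_mul_of_nonneg_left (mul_le_mul_of_nonneg_right K_le hU) hfd
  have h2 := mul_le_mul_of_nonneg_left hstage (show (0:ℝ) ≤ m ^ 2 / S by positivity)
  have h3 := mul_le_mul_of_nonneg_left h1 (show (0:ℝ) ≤ m ^ 2 / S by positivity)
  linarith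

end Vale.Agent.P237.Five
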